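import Mathlib

/-!
# P259, Top: inverse localiser morphisms up to natural zigzags

Two functors preserving weak equivalences, whose composites are joined to the identities by
natural spans of weak equivalences, induce inverse equivalences of the localisations.
-/

open CategoryTheory Functor

universe v₁ v₂ v₃ v₄ u₁ u₂ u₃ u₄

namespace P259.Top

variable {C₁ : Type u₁} [Category.{v₁} C₁] {C₂ : Type u₂} [Category.{v₂} C₂]
  {W₁ : MorphismProperty C₁} {W₂ : MorphismProperty C₂}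

/-- Functors in both directions which are inverse after localisation. -/
theorem isLocalizedEquivalence_of_isos (Φ : LocalizerMorphism W₁ W₂) (Ψ : LocalizerMorphism W₂ W₁)
    (e₁ : (Φ.functor ⋙ Ψ.functor) ⋙ W₁.Q ≅ W₁.Q)
    (e₂ : (Ψ.functor ⋙ Φ.functor) ⋙ W₂.Q ≅ W₂.Q) : Φ.IsLocalizedEquivalence where
  isEquivalence := by
    refine (Localization.equivalence W₁.Q W₁ W₂.Q W₂ (Φ.functor ⋙ W₂.Q)
      (Φ.localizedFunctor W₁.Q W₂.Q)
      (Ψ.functor ⋙ W₁.Q) (Ψ.localizedFunctor W₂.Q W₁.Q) ?_ ?_).isEquivalence_functor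
    · exact Functor.associator _ _ _ ≪≫
        isoWhiskerLeft _ (CatCommSq.iso Ψ.functor W₂.Q W₁.Q _).symm ≪≫
        (Functor.associator _ _ _).symm ≪≫ e₁
    · exact Functor.associator _ _ _ ≪≫
        isoWhiskerLeft _ (CatCommSq.iso Φ.functor W₁.Q W₂.Q _).symm ≪≫
        (Functor.associator _ _ _).symm ≪≫ e₂

/-- A natural span of weak equivalences becomes an isomorphism after localisation. -/
noncomputable def spanIso {C : Type u₁} [Category.{v₁} C] (W : MorphismProperty C)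
    {M K K' : C ⥤ C} (a : M ⟶ K) (b : M ⟶ K') (ha : ∀ X, W (a.app X)) (hb : ∀ X, W (b.app X)) :
    K' ⋙ W.Q ≅ K ⋙ W.Q :=
  have : IsIso (whiskerRight a W.Q) := by
    rw [NatTrans.isIso_iff_isIso_app]
    exact fun X => Localization.inverts W.Q W _ (ha X)
  have : IsIso (whiskerRight b W.Q) := by
    rw [NatTrans.isIso_iff_isIso_app]
    exact fun X => Localization.inverts W.Q W _ (hb X)
  (asIso (whiskerRight b W.Q)).symm ≪≫ asIso (whiskerRight a W.Q)

/-- Natural spans from the identities to the composites give an equivalence of localisations. -/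
theorem isLocalizedEquivalence_of_spans (Φ : LocalizerMorphism W₁ W₂)
    (Ψ : LocalizerMorphism W₂ W₁)
    {M₁ : C₁ ⥤ C₁} (a₁ : M₁ ⟶ 𝟭 C₁) (b₁ : M₁ ⟶ Φ.functor ⋙ Ψ.functor)
    (ha₁ : ∀ X, W₁ (a₁.app X)) (hb₁ : ∀ X, W₁ (b₁.app X))
    {M₂ : C₂ ⥤ C₂} (a₂ : M₂ ⟶ 𝟭 C₂) (b₂ : M₂ ⟶ Ψ.functor ⋙ Φ.functor)
    (ha₂ : ∀ Y, W₂ (a₂.app Y)) (hb₂ : ∀ Y, W₂ (b₂.app Y)) : Φ.IsLocalizedEquivalence :=
  isLocalizedEquivalence_of_isos Φ Ψ
    (spanIso W₁ a₁ b₁ ha₁ hb₁ ≪≫ Functor.leftUnitor _)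
    (spanIso W₂ a₂ b₂ ha₂ hb₂ ≪≫ Functor.leftUnitor _)

/-- For a localised equivalence, every induced functor between any localisations is an
equivalence. -/
theorem isEquivalence_induced (Φ : LocalizerMorphism W₁ W₂) [Φ.IsLocalizedEquivalence]
    {D₁ : Type u₃} [Category.{v₃} D₁] {D₂ : Type u₄} [Category.{v₄} D₂]
    (L₁ : C₁ ⥤ D₁) [L₁.IsLocalization W₁] (L₂ : C₂ ⥤ D₂) [L₂.IsLocalization W₂]
    (G : D₁ ⥤ D₂) (e : Φ.functor ⋙ L₂ ≅ L₁ ⋙ G) : G.IsEquivalence :=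
  have : CatCommSq Φ.functor L₁ L₂ G := ⟨e⟩
  Φ.isEquivalence L₁ L₂ G

end P259.Top
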