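import Vale.Agent.P259.Top.Filler

/-!
# P259, Top: weak homotopy equivalences, read through maps of discs

A map is a weak homotopy equivalence if it is bijective on path components and on all homotopy
groups at all base points. Both conditions are rewritten with maps of discs and fillers.
-/

open CategoryTheory

universe v u

noncomputable section

namespace P259.Top

variable {X Y Z : Type u} [TopologicalSpace X] [TopologicalSpace Y] [TopologicalSpace Z]

/-- The map induced on path components. -/
def compMap (f : C(X, Y)) : ZerothHomotopy X → ZerothHomotopy Y :=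
  Quotient.map f fun _ _ h => h.map f.continuous

/-- A weak homotopy equivalence. -/
structure IsWeq (f : C(X, Y)) : Prop where
  comp_bij : Function.Bijective (compMap f)
  pi_bij : ∀ n : ℕ, 0 < n → ∀ x : X, Function.Bijective (piMap f (Fin n) x)

theorem compMap_injective_iff (f : C(X, Y)) :
    Function.Injective (compMap f) ↔ ∀ a b, Joined (f a) (f b) → Joined a b := by
  constructor
  · intro h a b hab
    exact Quotient.exact (h (a₁ := ⟦a⟧) (a₂ := ⟦b⟧) (Quotient.sound hab))
  · intro h a b
    induction a using Quotient.inductionOn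
    induction b using Quotient.inductionOn
    exact fun hab => Quotient.sound (h _ _ (Quotient.exact hab))

theorem compMap_surjective_iff (f : C(X, Y)) :
    Function.Surjective (compMap f) ↔ ∀ y, ∃ x, Joined (f x) y := by
  constructor
  · intro h y
    obtain ⟨a, ha⟩ := h ⟦y⟧
    induction a using Quotient.inductionOn with
    | _ a => exact ⟨a, Quotient.exact ha⟩
  · intro h c
    induction c using Quotient.inductionOn with
    | _ c =>
      obtain ⟨a, ha⟩ := h c
      exact ⟨⟦a⟧, Quotient.sound ha⟩

/-- Weak homotopy equivalences in terms of paths and disc fillers. -/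
theorem isWeq_iff (f : C(X, Y)) :
    IsWeq f ↔ (∀ y, ∃ x, Joined (f x) y) ∧ (∀ a b, Joined (f a) (f b) → Joined a b) ∧
      ∀ n : ℕ, 0 < n → ∀ x : X,
        (∀ c : DiscLoop n Y (f x), ∃ a : DiscLoop n X x, Filler (f.comp a.1) c.1) ∧
        ∀ a b : DiscLoop n X x, Filler (f.comp a.1) (f.comp b.1) → Filler a.1 b.1 := by
  constructor
  · intro h
    refine ⟨(compMap_surjective_iff f).1 h.comp_bij.2, (compMap_injective_iff f).1 h.comp_bij.1,
      fun n hn x => ?_⟩
    have hb := (discPiMap_bijective_iff (n := n) f x).2 (h.pi_bij n hn x)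
    exact ⟨(discPiMap_surjective_iff f x).1 hb.2, (discPiMap_injective_iff f x).1 hb.1⟩
  · rintro ⟨h1, h2, h3⟩
    exact ⟨⟨(compMap_injective_iff f).2 h2, (compMap_surjective_iff f).2 h1⟩, fun n hn x =>
      (discPiMap_bijective_iff f x).1
        ⟨(discPiMap_injective_iff f x).2 (h3 n hn x).2,
          (discPiMap_surjective_iff f x).2 (h3 n hn x).1⟩⟩

instance : Subsingleton (Disc 0) := ⟨fun _ _ => Subtype.ext (Subsingleton.elim _ _)⟩

/-- The point of the disc of dimension zero. -/
def discPoint : Disc 0 := ⟨0, by simp⟩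

theorem rim_zero : rim 0 = ∅ := by
  ext v
  simp [rim, Subsingleton.elim (v : EuclideanSpace ℝ (Fin 0)) 0]

theorem joined_iff_filler (a b : Y) :
    Joined a b ↔ Filler (ContinuousMap.const (Disc 0) a) (ContinuousMap.const (Disc 0) b) := by
  rw [filler_iff_homotopicRel, rim_zero, ContinuousMap.homotopicRel_empty]
  constructor
  · rintro ⟨p⟩
    exact ⟨⟨⟨fun q => p q.1, by fun_prop⟩, fun _ => p.source, fun _ => p.target⟩⟩
  · rintro ⟨H⟩
    exact ⟨⟨⟨fun t => H (t, discPoint), by fun_prop⟩, H.apply_zero _, H.apply_one _⟩⟩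

theorem piMap_comp (f : C(X, Y)) (g : C(Y, Z)) (N : Type*) (x : X) :
    piMap (g.comp f) N x = piMap g N (f x) ∘ piMap f N x := by
  funext a
  induction a using Quotient.inductionOn
  rfl

theorem IsWeq.id : IsWeq (ContinuousMap.id X) := by
  rw [isWeq_iff]
  refine ⟨fun y => ⟨y, Joined.refl y⟩, fun _ _ h => h, fun n _ x => ⟨fun c => ⟨c, ?_⟩, ?_⟩⟩
  · rw [ContinuousMap.id_comp]
    exact Filler.refl _
  · intro a b h
    rwa [ContinuousMap.id_comp, ContinuousMap.id_comp] at h

theorem IsWeq.comp {f : C(X, Y)} {g : C(Y, Z)} (hg : IsWeq g) (hf : IsWeq f) :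
    IsWeq (g.comp f) := by
  refine ⟨?_, fun n hn x => ?_⟩
  · have h : compMap (g.comp f) = compMap g ∘ compMap f := by
      funext a
      induction a using Quotient.inductionOn
      rfl
    rw [h]
    exact hg.comp_bij.comp hf.comp_bij
  · rw [piMap_comp]
    exact (hg.pi_bij n hn (f x)).comp (hf.pi_bij n hn x)

theorem IsWeq.of_homeomorph (e : X ≃ₜ Y) : IsWeq (e : C(X, Y)) := by
  rw [isWeq_iff]
  refine ⟨fun y => ⟨e.symm y, by simpa using Joined.refl y⟩, fun a b h => ?_,
    fun n _ x => ⟨fun c => ⟨⟨(e.symm : C(Y, X)).comp c.1, fun v hv => ?_⟩, ?_⟩, fun a b h => ?_⟩⟩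
  · simpa using h.map e.symm.continuous
  · simp [c.2 v hv]
  · have hc : (e : C(X, Y)).comp ((e.symm : C(Y, X)).comp c.1) = c.1 := by ext; simp
    rw [hc]
    exact Filler.refl _
  · have h' := h.map (e.symm : C(Y, X))
    have ha : ∀ k : C(Disc n, X), (e.symm : C(Y, X)).comp ((e : C(X, Y)).comp k) = k :=
      fun k => by ext; simp
    rwa [ha, ha] at h'

/-- Weak homotopy equivalences of compactly generated spaces. -/
def weqProp : MorphismProperty CompactlyGenerated.{v, u} :=
  fun _ _ f => IsWeq f.hom.hom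

theorem weqProp_iff {A B : CompactlyGenerated.{v, u}} (f : A ⟶ B) :
    weqProp f ↔ IsWeq f.hom.hom := Iff.rfl

end P259.Top
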