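import Vale.Agent.P259.Core
import Vale.Agent.P259.Top.Weq

/-!
# P259, Top: cells of the fundamental groupoid as maps of discs
-/

namespace Vale.Agent.P259

open CategoryTheory Opposite P259.Top
open scoped unitInterval

noncomputable section

/-- The two models of the closed disc. -/
def ballDisc (n : ℕ) : Ball n ≃ₜ P259.Top.Disc n where
  toFun v := ⟨WithLp.toLp 2 v.1, by
    rw [Metric.mem_closedBall, dist_zero_right]
    have h : ‖(WithLp.toLp 2 v.1 : EuclideanSpace ℝ (Fin n))‖ ^ 2 ≤ 1 := by
      simpa [EuclideanSpace.norm_sq_eq] using v.2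
    nlinarith [norm_nonneg (WithLp.toLp 2 v.1 : EuclideanSpace ℝ (Fin n))]⟩
  invFun w := ⟨w.1.ofLp, by
    have h : ‖(w : EuclideanSpace ℝ (Fin n))‖ ^ 2 ≤ 1 := by
      nlinarith [P259.Top.norm_le n w, norm_nonneg (w : EuclideanSpace ℝ (Fin n))]
    simpa [EuclideanSpace.norm_sq_eq] using h⟩
  left_inv v := rfl
  right_inv w := rfl
  continuous_toFun := ((PiLp.continuous_toLp 2 _).comp continuous_subtype_val).subtype_mk _
  continuous_invFun := ((PiLp.continuous_ofLp 2 _).comp continuous_subtype_val).subtype_mk _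

/-- The hemisphere of the next disc: the upper one for a target. -/
def discSide (e : Bool) (n : ℕ) : C(P259.Top.Disc n, P259.Top.Disc (n + 1)) :=
  if e then upper n else lower n

theorem hemisphere_discSide (e : Bool) {n : ℕ} (v : Ball n) :
    hemisphere e v = (discSide e n (ballDisc n v)).1.ofLp := by
  have hh : height (ballDisc n v) = Real.sqrt (1 - ∑ k, v.1 k ^ 2) := by
    simp [height, ballDisc, EuclideanSpace.norm_sq_eq]
  cases e <;> simp [discSide, upper_coe, lower_coe, hemisphere, ballDisc] <;> exact hh.symm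

/-- A point of the sphere lies on one of the hemispheres. -/
theorem exists_discSide {n : ℕ} {w : P259.Top.Disc (n + 1)} (hw : w ∈ P259.Top.rim (n + 1)) :
    ∃ e, discSide e n (shadow w) = w := by
  obtain ⟨s, hs⟩ := exists_slice_eq w
  by_cases hz : shadow w ∈ P259.Top.rim n
  · exact ⟨true, (slice_rim hz _ s).trans hs⟩
  · have h1 := norm_slice_sq s (shadow w)
    rw [hs, show ‖(w : EuclideanSpace ℝ (Fin (n + 1)))‖ = 1 from hw, mul_pow, height_sq] at h1
    have hne : ‖(shadow w : EuclideanSpace ℝ (Fin n))‖ ^ 2 ≠ 1 := fun h =>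
      hz (show ‖(shadow w : EuclideanSpace ℝ (Fin n))‖ = 1 by
        nlinarith [norm_nonneg (shadow w : EuclideanSpace ℝ (Fin n))])
    have h2 : (s : ℝ) ^ 2 = 1 := by
      refine mul_right_cancel₀ (sub_ne_zero.2 (Ne.symm hne)) ?_
      linarith
    rcases sq_eq_one_iff.1 h2 with h | h
    · refine ⟨true, ?_⟩
      rw [show s = ⟨1, by norm_num⟩ from Subtype.ext h] at hs
      exact hs
    · refine ⟨false, ?_⟩
      rw [show s = ⟨-1, by norm_num⟩ from Subtype.ext h] at hs
      exact hs

theorem discSide_mem_rim (e : Bool) {n : ℕ} (v : P259.Top.Disc n) :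
    discSide e n v ∈ P259.Top.rim (n + 1) := by
  cases e
  · exact lower_mem_rim v
  · exact upper_mem_rim v

namespace DiscFunctor

variable {E : Ext} (D : DiscFunctor E)

/-- The value at a disc is the standard disc. -/
def std (n : ℕ) : E.discSpace D.D n ≃ₜ P259.Top.Disc n := (D.homeo n).trans (ballDisc n)

theorem std_face (e : Bool) (n : ℕ) (x : E.discSpace D.D n) :
    D.std (n + 1) (cmap (D.D.map (E.face e n)) x) = discSide e n (D.std n x) := by
  apply Subtype.ext
  apply WithLp.ofLp_injective 2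
  show ((ballDisc (n + 1)) (D.homeo (n + 1) _)).1.ofLp = _
  rw [show ((ballDisc (n + 1)) (D.homeo (n + 1) (cmap (D.D.map (E.face e n)) x))).1.ofLp
    = (D.homeo (n + 1) (cmap (D.D.map (E.face e n)) x)).1 from rfl, D.hemi,
    hemisphere_discSide]
  rfl

variable (Y : CompactlyGenerated.{0, 0})

/-- Cells are maps of standard discs. -/
def cellEquiv (n : ℕ) : E.cells (D.sing.obj Y) n ≃ C(P259.Top.Disc n, Y.toTop) where
  toFun a := (cmap a).comp ((D.std n).symm : C(P259.Top.Disc n, E.discSpace D.D n))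
  invFun φ := ConcreteCategory.ofHom (C := CompactlyGenerated.{0, 0})
    (φ.comp (D.std n : C(E.discSpace D.D n, P259.Top.Disc n)))
  left_inv a := ConcreteCategory.hom_ext _ _ fun x => congrArg (cmap a) ((D.std n).symm_apply_apply x)
  right_inv φ := ContinuousMap.ext fun v => congrArg φ ((D.std n).apply_symm_apply v)

theorem cellEquiv_face (e : Bool) {n : ℕ} (a : E.cells (D.sing.obj Y) (n + 1)) :
    D.cellEquiv Y n (E.act (D.sing.obj Y) (E.face e n) a)
      = (D.cellEquiv Y (n + 1) a).comp (discSide e n) := by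
  refine ContinuousMap.ext fun v => congrArg (cmap a) ?_
  apply (D.std (n + 1)).injective
  show D.std (n + 1) (cmap (D.D.map (E.face e n)) ((D.std n).symm v)) =
    D.std (n + 1) ((D.std (n + 1)).symm (discSide e n v))
  rw [D.std_face, Homeomorph.apply_symm_apply, Homeomorph.apply_symm_apply]

theorem linked_iff {n : ℕ} (a b : E.cells (D.sing.obj Y) n) :
    E.Linked (D.sing.obj Y) a b ↔ Filler (D.cellEquiv Y n a) (D.cellEquiv Y n b) := by
  constructor
  · rintro ⟨c, rfl, rfl⟩
    refine Filler.symm ⟨D.cellEquiv Y (n + 1) c, ?_, ?_⟩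
    · rw [D.cellEquiv_face]; rfl
    · rw [D.cellEquiv_face]; rfl
  · intro hf
    obtain ⟨h, h1, h2⟩ := hf.symm
    refine ⟨(D.cellEquiv Y (n + 1)).symm h, ?_, ?_⟩ <;> apply (D.cellEquiv Y n).injective <;>
      rw [D.cellEquiv_face, Equiv.apply_symm_apply]
    · exact h2
    · exact h1

theorem homotopic_iff {n : ℕ} (a b : E.cells (D.sing.obj Y) n) :
    E.Homotopic (D.sing.obj Y) a b ↔ Filler (D.cellEquiv Y n a) (D.cellEquiv Y n b) := by
  refine ⟨fun h => ?_, fun h => Relation.EqvGen.rel _ _ ((D.linked_iff Y a b).2 h)⟩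
  induction h with
  | rel a b h => exact (D.linked_iff Y a b).1 h
  | refl a => exact Filler.refl _
  | symm _ _ _ ih => exact ih.symm
  | trans _ _ _ _ _ ih ih' => exact ih.trans ih'

/-- The point named by a cell of dimension zero. -/
def point (x : E.cells (D.sing.obj Y) 0) : Y.toTop := D.cellEquiv Y 0 x discPoint

theorem cellEquiv_zero (x : E.cells (D.sing.obj Y) 0) :
    D.cellEquiv Y 0 x = ContinuousMap.const _ (D.point Y x) :=
  ContinuousMap.ext fun v => congrArg (D.cellEquiv Y 0 x) (Subsingleton.elim v _)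

theorem cellEquiv_iter (u : E.Units) (x : E.cells (D.sing.obj Y) 0) :
    ∀ n, D.cellEquiv Y n (u.iter x n) = ContinuousMap.const _ (D.point Y x)
  | 0 => D.cellEquiv_zero Y x
  | n + 1 => by
    have ih := cellEquiv_iter u x n
    refine ContinuousMap.ext fun v => ?_
    have h := ContinuousMap.congr_fun ih
      (D.std n (cmap (D.D.map (u.unit n)) ((D.std (n + 1)).symm v)))
    refine Eq.trans ?_ h
    show cmap (u.iter x n) (cmap (D.D.map (u.unit n)) ((D.std (n + 1)).symm v)) =
      cmap (u.iter x n) ((D.std n).symm (D.std n _))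
    rw [Homeomorph.symm_apply_apply]

theorem isLoop_iff (u : E.Units) (x : E.cells (D.sing.obj Y) 0) :
    ∀ (n : ℕ) (a : E.cells (D.sing.obj Y) n),
    E.IsLoop u (D.sing.obj Y) x n a ↔
      ∀ v ∈ P259.Top.rim n, D.cellEquiv Y n a v = D.point Y x
  | 0, a => ⟨fun _ v hv => absurd hv (by simp [rim_zero]), fun _ => trivial⟩
  | n + 1, a => by
    constructor
    · intro h v hv
      obtain ⟨e, he⟩ := exists_discSide hv
      rw [← he, ← ContinuousMap.comp_apply, ← D.cellEquiv_face, h e, D.cellEquiv_iter]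
      rfl
    · intro h e
      apply (D.cellEquiv Y n).injective
      rw [D.cellEquiv_face, D.cellEquiv_iter]
      exact ContinuousMap.ext fun v => h _ (discSide_mem_rim e v)

theorem cellEquiv_map {Y' : CompactlyGenerated.{0, 0}} (f : Y ⟶ Y') {n : ℕ}
    (a : E.cells (D.sing.obj Y) n) :
    D.cellEquiv Y' n (E.appCell (D.sing.map f) n a) = (cmap f).comp (D.cellEquiv Y n a) :=
  rfl

end DiscFunctor

end

end Vale.Agent.P259
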