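import Vale.Agent.P259.Spec
import Vale.Agent.P259.Top.Cells

/-!
# P259, Top: the fundamental groupoid preserves weak equivalences
-/

namespace Vale.Agent.P259

open CategoryTheory P259.Top

noncomputable section

variable {E : Ext} (D : DiscFunctor E) {X Y : CompactlyGenerated.{0, 0}}

theorem IsTopWeq.disc_surjective {f : X ⟶ Y} (hf : IsTopWeq f) (n : ℕ) (x : X.toTop)
    (c : DiscLoop n Y.toTop (cmap f x)) :
    ∃ a : DiscLoop n X.toTop x, Filler ((cmap f).comp a.1) c.1 := by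
  obtain ⟨a, ha⟩ := (hf.2 n x).1 (loopEquiv n _ _ c)
  obtain ⟨a, rfl⟩ := (loopEquiv n _ _).surjective a
  exact ⟨a, (homotopic_loopEquiv_iff (DiscLoop.map (cmap f) a) c).1 ha⟩

theorem IsTopWeq.disc_injective {f : X ⟶ Y} (hf : IsTopWeq f) (n : ℕ) (x : X.toTop)
    (a b : DiscLoop n X.toTop x) (h : Filler ((cmap f).comp a.1) ((cmap f).comp b.1)) :
    Filler a.1 b.1 :=
  (homotopic_loopEquiv_iff a b).1 ((hf.2 n x).2 (loopEquiv n _ _ a) (loopEquiv n _ _ b)
    ((homotopic_loopEquiv_iff (DiscLoop.map (cmap f) a) (DiscLoop.map (cmap f) b)).2 h))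

theorem DiscFunctor.point_map (f : X ⟶ Y) (x : E.cells (D.sing.obj X) 0) :
    D.point Y (E.appCell (D.sing.map f) 0 x) = cmap f (D.point X x) :=
  rfl

theorem DiscFunctor.isWeqMap {f : X ⟶ Y} (hf : IsTopWeq f) : E.IsWeqMap (D.sing.map f) := by
  refine ⟨fun y => ?_, fun u x n => ⟨fun b hb => ?_, fun a a' ha ha' h => ?_⟩⟩
  · obtain ⟨p, hp⟩ := hf.1 (D.point Y y)
    refine ⟨(D.cellEquiv X 0).symm (ContinuousMap.const _ p), ?_⟩
    rw [D.homotopic_iff, D.cellEquiv_map, Equiv.apply_symm_apply, D.cellEquiv_zero Y y]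
    exact (joined_iff_filler _ _).1 hp
  · obtain ⟨a, ha⟩ := hf.disc_surjective n (D.point X x)
      ⟨D.cellEquiv Y n b, (D.isLoop_iff Y u _ n b).1 hb⟩
    refine ⟨(D.cellEquiv X n).symm a.1, ?_, ?_⟩
    · rw [D.isLoop_iff, Equiv.apply_symm_apply]
      exact a.2
    · rw [D.homotopic_iff, D.cellEquiv_map, Equiv.apply_symm_apply]
      exact ha
  · rw [D.homotopic_iff] at h ⊢
    rw [D.cellEquiv_map, D.cellEquiv_map] at h
    exact hf.disc_injective n (D.point X x) ⟨_, (D.isLoop_iff X u x n a).1 ha⟩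
      ⟨_, (D.isLoop_iff X u x n a').1 ha'⟩ h

theorem piPreserves : Spec.PiPreserves := fun _ D _ _ _ hf => D.isWeqMap hf

end

end Vale.Agent.P259
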