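import Vale.Agent.P259.Final.Extend
import Vale.Agent.P259.Pi.Ball

/-!
# P259, Top: pairs homeomorphic to a closed ball and its boundary sphere

Convex bodies, products, the standard simplex; the homotopy extension property and extension of
maps into weakly contractible spaces; glueing along finitely many closed sets.
-/

namespace Vale.Agent.P259

open Set Metric
open scoped Topology unitInterval

noncomputable section

/-- A map given on the members of a finite closed cover. -/
theorem exists_glue_closed {X W ι : Type*} [TopologicalSpace X] [TopologicalSpace W] [Finite ι]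
    {A : ι → Set X} (hA : ∀ i, IsClosed (A i)) (hcov : ∀ x, ∃ i, x ∈ A i)
    (f : ∀ i, C(A i, W))
    (hf : ∀ i j x (hi : x ∈ A i) (hj : x ∈ A j), f i ⟨x, hi⟩ = f j ⟨x, hj⟩) :
    ∃ F : C(X, W), ∀ i (x : A i), F x.1 = f i x := by
  choose c hc using hcov
  let g : X → W := fun x => f (c x) ⟨x, hc x⟩
  have hg : ∀ i (x : A i), g x.1 = f i x := fun i x => hf _ _ _ _ _
  refine ⟨⟨g, ?_⟩, hg⟩
  refine (locallyFinite_of_finite A).continuous (eq_univ_of_forall fun x => mem_iUnion.2 ⟨c x, hc x⟩) hA fun i => ?_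
  rw [continuousOn_iff_continuous_domRestrict]
  exact (f i).continuous.congr fun x => (hg i x).symm

theorem mem_rim {n : ℕ} {v : Ball n} : v ∈ rim n ↔ ∑ k, v.1 k ^ 2 = 1 := Iff.rfl

/-- A pair homeomorphic to a closed ball and its sphere. -/
def IsBall {K : Type} [TopologicalSpace K] (B : Set K) : Prop :=
  ∃ (d : ℕ) (e : Ball d ≃ₜ K), ∀ v, e v ∈ B ↔ v ∈ rim d

/-- Maps from `B` into weakly contractible spaces extend to `K`. -/
def Fills {K : Type} [TopologicalSpace K] (B : Set K) : Prop :=
  ∀ (Z : Type) [TopologicalSpace Z], WC Z → ∀ f : C(B, Z), ∃ F : C(K, Z), ∀ b : B, F b.1 = f b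

theorem isBall_rim (n : ℕ) : IsBall (rim n) := ⟨n, Homeomorph.refl _, fun _ => Iff.rfl⟩

namespace IsBall

variable {K K' : Type} [TopologicalSpace K] [TopologicalSpace K'] {B : Set K} {B' : Set K'}

theorem of_homeomorph (h : IsBall B) (e : K ≃ₜ K') (he : ∀ x, e x ∈ B' ↔ x ∈ B) : IsBall B' := by
  obtain ⟨d, g, hg⟩ := h
  exact ⟨d, g.trans e, fun v => (he _).trans (hg v)⟩

theorem isClosed_bdry (h : IsBall B) : IsClosed B := by
  obtain ⟨d, e, he⟩ := h
  have hB : B = e.symm ⁻¹' rim d := by
    ext x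
    simp [← he]
  rw [hB]
  exact (isClosed_rim d).preimage e.symm.continuous

theorem compactSpace (h : IsBall B) : CompactSpace K := by
  obtain ⟨d, e, -⟩ := h
  exact e.compactSpace

theorem t2Space (h : IsBall B) : T2Space K := by
  obtain ⟨d, e, -⟩ := h
  exact e.t2Space

theorem nonempty (h : IsBall B) : Nonempty K := by
  obtain ⟨d, e, -⟩ := h
  exact ⟨e ⟨0, by simp⟩⟩

theorem fills (h : IsBall B) : Fills B := by
  obtain ⟨d, e, he⟩ := h
  intro Z _ hZ f
  obtain ⟨F, hF⟩ := hZ d (f.comp ⟨fun v => ⟨e v.1, (he v.1).2 v.2⟩,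
    (e.continuous.comp continuous_subtype_val).subtype_mk _⟩)
  refine ⟨F.comp (e.symm : C(K, Ball d)), fun b => ?_⟩
  have hb : e.symm b.1 ∈ rim d := (he _).1 (by rw [e.apply_symm_apply]; exact b.2)
  refine (hF ⟨_, hb⟩).trans (congrArg f (Subtype.ext ?_))
  exact e.apply_symm_apply b.1

end IsBall

/-- A compact convex body is a ball, its frontier the sphere. -/
theorem isBall_of_convex {E : Type} [NormedAddCommGroup E] [NormedSpace ℝ E]
    [FiniteDimensional ℝ E] {C : Set E} (hcomp : IsCompact C) (hconv : Convex ℝ C)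
    (hne : (interior C).Nonempty) : IsBall (Subtype.val ⁻¹' frontier C : Set C) := by
  set d := Module.finrank ℝ E
  let L : E ≃L[ℝ] EuclideanSpace ℝ (Fin d) := ContinuousLinearEquiv.ofFinrankEq (by simp [d])
  set D : Set (EuclideanSpace ℝ (Fin d)) := L.toHomeomorph '' C
  have hDc : IsCompact D := hcomp.image L.toHomeomorph.continuous
  have hDconv : Convex ℝ D := hconv.linear_image L.toLinearEquiv.toLinearMap
  have hDne : (interior D).Nonempty := by
    rw [← L.toHomeomorph.image_interior]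
    exact hne.image _
  obtain ⟨h, -, hcl, hfr⟩ :=
    exists_homeomorph_image_interior_closure_frontier_eq_unitBall hDconv hDne hDc.isBounded
  rw [hDc.isClosed.closure_eq] at hcl
  set H : E ≃ₜ EuclideanSpace ℝ (Fin d) := L.toHomeomorph.trans h
  have hH : H '' C = closedBall 0 1 := by
    rw [← hcl, ← image_comp]
    rfl
  have hHfr : H '' frontier C = sphere 0 1 := by
    rw [← hfr, ← L.toHomeomorph.image_frontier, ← image_comp]
    rfl
  let e : C ≃ₜ P259.Top.Disc d := (H.image C).trans (Homeomorph.setCongr hH)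
  refine ⟨d, (ballDisc d).trans e.symm, fun v => ?_⟩
  set x := e.symm (ballDisc d v)
  have hx : H x.1 = (ballDisc d v).1 :=
    congrArg Subtype.val (e.apply_symm_apply (ballDisc d v))
  show x.1 ∈ frontier C ↔ _
  rw [← ballDisc_mem_rim, ← H.injective.mem_set_image, hHfr, hx, mem_sphere_zero_iff_norm]
  rfl

/-- The interval and its two ends. -/
theorem isBall_interval : IsBall ({0, 1} : Set I) := by
  refine (isBall_of_convex (C := Icc (0 : ℝ) 1) isCompact_Icc (convex_Icc 0 1)
    (by rw [interior_Icc]; exact nonempty_Ioo.2 one_pos)).of_homeomorph (Homeomorph.refl _) ?_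
  intro x
  rw [frontier_Icc zero_le_one]
  simp only [mem_preimage, mem_insert_iff, mem_singleton_iff, Subtype.ext_iff, Icc.coe_zero,
    Icc.coe_one, Homeomorph.refl_apply, id_eq]

/-- A product of two balls is a ball. -/
theorem IsBall.prod {K K' : Type} [TopologicalSpace K] [TopologicalSpace K'] {B : Set K}
    {B' : Set K'} (h : IsBall B) (h' : IsBall B') :
    IsBall {p : K × K' | p.1 ∈ B ∨ p.2 ∈ B'} := by
  obtain ⟨a, e, he⟩ := h
  obtain ⟨b, e', he'⟩ := h'
  have hint : ∀ n, (interior (closedBall (0 : EuclideanSpace ℝ (Fin n)) 1)).Nonempty := fun n => by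
    rw [interior_closedBall _ one_ne_zero]
    exact nonempty_ball.2 one_pos
  have hprod := isBall_of_convex
    (C := closedBall (0 : EuclideanSpace ℝ (Fin a)) 1 ×ˢ closedBall (0 : EuclideanSpace ℝ (Fin b)) 1)
    ((isCompact_closedBall _ _).prod (isCompact_closedBall _ _))
    ((convex_closedBall _ _).prod (convex_closedBall _ _))
    (by rw [interior_prod_eq]; exact (hint a).prod (hint b))
  refine hprod.of_homeomorph ((Homeomorph.Set.prod _ _).trans
    (((ballDisc a).symm.trans e).prodCongr ((ballDisc b).symm.trans e'))) fun p => ?_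
  obtain ⟨⟨x, y⟩, hx, hy⟩ := p
  show (e ((ballDisc a).symm ⟨x, hx⟩) ∈ B ∨ e' ((ballDisc b).symm ⟨y, hy⟩) ∈ B') ↔ _
  rw [he, he', ← ballDisc_mem_rim, ← ballDisc_mem_rim, Homeomorph.apply_symm_apply,
    Homeomorph.apply_symm_apply, mem_preimage, frontier_prod_eq, frontier_closedBall _ one_ne_zero,
    frontier_closedBall _ one_ne_zero, isClosed_closedBall.closure_eq,
    isClosed_closedBall.closure_eq]
  show (‖x‖ = 1 ∨ ‖y‖ = 1) ↔ _
  simp only [mem_union, mem_prod, mem_sphere_zero_iff_norm]
  tauto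

/-- Homotopy extension from the boundary of a ball. -/
theorem IsBall.hep {K : Type} [TopologicalSpace K] {B : Set K} (hB : IsBall B) {W : Type}
    [TopologicalSpace W] (f : C(K, W)) (h : C(B × I, W)) (h0 : ∀ b, h (b, 0) = f b.1) :
    ∃ H : C(K × I, W), (∀ x, H (x, 0) = f x) ∧ ∀ b t, H (b.1, t) = h (b, t) := by
  obtain ⟨d, e, he⟩ := hB
  obtain ⟨G, G0, G1⟩ := exists_cyl_lift (f.comp (e : C(Ball d, K)))
    (h.comp ⟨fun p => (⟨e p.1.1, (he _).2 p.1.2⟩, p.2), by fun_prop⟩) (fun v => h0 _)
  refine ⟨G.comp ⟨fun p => (e.symm p.1, p.2), by fun_prop⟩, fun x => ?_, fun b t => ?_⟩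
  · exact (G0 (e.symm x)).trans (congrArg f (e.apply_symm_apply x))
  · have hb : e.symm b.1 ∈ rim d := (he _).1 (by rw [e.apply_symm_apply]; exact b.2)
    refine (G1 ⟨_, hb⟩ t).trans ?_
    show h (⟨e (e.symm b.1), _⟩, t) = _
    simp only [e.apply_symm_apply, Subtype.coe_eta]

end

end Vale.Agent.P259
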