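import Vale.Agent.P259.Top.PairSphere
import Vale.Agent.P259.Complex.Pair

/-!
# P259, Top: calculus of maps of pairs

Homotopy of maps of pairs with the boundary moving in a given space: equivalence relation,
functoriality, homotopy extension, and the comparison with homotopy relative to the boundary when
the boundary moves in a weakly contractible space.
-/

namespace Vale.Agent.P259

open Set
open scoped Topology unitInterval

noncomputable section

variable {K K' W W' Z Z' : Type} [TopologicalSpace K] [TopologicalSpace K'] [TopologicalSpace W]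
  [TopologicalSpace W'] [TopologicalSpace Z] [TopologicalSpace Z'] {B : Set K} {B' : Set K'}
  {r : C(Z, W)}

namespace PMap

theorem Hom.refl (p : PMap B r) : p.Hom p :=
  ⟨p.f.comp ⟨Prod.fst, continuous_fst⟩, p.w.comp ⟨Prod.fst, continuous_fst⟩,
    fun b _ => p.comm b, fun _ => rfl, fun _ => rfl, fun _ => rfl, fun _ => rfl⟩

theorem Hom.symm {p q : PMap B r} (hpq : p.Hom q) : q.Hom p := by
  obtain ⟨H, h, hc, H0, H1, h0, h1⟩ := hpq
  refine ⟨H.comp ⟨fun x => (x.1, σ x.2), by fun_prop⟩, h.comp ⟨fun x => (x.1, σ x.2), by fun_prop⟩,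
    fun b t => hc b (σ t), fun x => ?_, fun x => ?_, fun b => ?_, fun b => ?_⟩
  · exact (congrArg (fun t => H (x, t)) unitInterval.symm_zero).trans (H1 x)
  · exact (congrArg (fun t => H (x, t)) unitInterval.symm_one).trans (H0 x)
  · exact (congrArg (fun t => h (b, t)) unitInterval.symm_zero).trans (h1 b)
  · exact (congrArg (fun t => h (b, t)) unitInterval.symm_one).trans (h0 b)

theorem Hom.trans {p q u : PMap B r} (hpq : p.Hom q) (hqu : q.Hom u) : p.Hom u := by
  obtain ⟨H, h, hc, H0, H1, h0, h1⟩ := hpq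
  obtain ⟨G, g, gc, G0, G1, g0, g1⟩ := hqu
  let H' : p.f.Homotopy q.f := ⟨H.comp ⟨fun x => (x.2, x.1), by fun_prop⟩, H0, H1⟩
  let G' : q.f.Homotopy u.f := ⟨G.comp ⟨fun x => (x.2, x.1), by fun_prop⟩, G0, G1⟩
  let h' : p.w.Homotopy q.w := ⟨h.comp ⟨fun x => (x.2, x.1), by fun_prop⟩, h0, h1⟩
  let g' : q.w.Homotopy u.w := ⟨g.comp ⟨fun x => (x.2, x.1), by fun_prop⟩, g0, g1⟩
  refine ⟨(H'.trans G').toContinuousMap.comp ⟨fun x => (x.2, x.1), by fun_prop⟩,
    (h'.trans g').toContinuousMap.comp ⟨fun x => (x.2, x.1), by fun_prop⟩, fun b t => ?_,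
    fun x => (H'.trans G').apply_zero x, fun x => (H'.trans G').apply_one x,
    fun b => (h'.trans g').apply_zero b, fun b => (h'.trans g').apply_one b⟩
  show (H'.trans G') (t, b.1) = r ((h'.trans g') (t, b))
  rw [ContinuousMap.Homotopy.trans_apply, ContinuousMap.Homotopy.trans_apply]
  split_ifs
  · exact hc b _
  · exact gc b _

theorem Hom.equivalence : Equivalence (PMap.Hom (B := B) (r := r)) :=
  ⟨Hom.refl, Hom.symm, Hom.trans⟩

/-- A homotopy relative to the boundary is a homotopy of pairs. -/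
theorem Hom.of_homotopicRel {p q : PMap B r} (hw : p.w = q.w) (h : p.f.HomotopicRel q.f B) :
    p.Hom q := by
  obtain ⟨F⟩ := h
  refine ⟨F.toContinuousMap.comp ⟨fun x => (x.2, x.1), by fun_prop⟩,
    p.w.comp ⟨Prod.fst, continuous_fst⟩, fun b t => ?_, fun x => F.apply_zero x,
    fun x => F.apply_one x, fun _ => rfl, fun b => congrArg (fun w : C(B, Z) => w b) hw⟩
  exact (F.eq_fst t b.2).trans (p.comm b)

/-- Composition with a square of maps. -/
def map (g : C(W, W')) (k : C(Z, Z')) (r' : C(Z', W')) (hgk : ∀ z, g (r z) = r' (k z))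
    (p : PMap B r) : PMap B r' where
  f := g.comp p.f
  w := k.comp p.w
  comm b := (congrArg g (p.comm b)).trans (hgk _)

theorem Hom.map {p q : PMap B r} (h : p.Hom q) (g : C(W, W')) (k : C(Z, Z')) (r' : C(Z', W'))
    (hgk : ∀ z, g (r z) = r' (k z)) : (p.map g k r' hgk).Hom (q.map g k r' hgk) := by
  obtain ⟨H, h, hc, H0, H1, h0, h1⟩ := h
  exact ⟨g.comp H, k.comp h, fun b t => (congrArg g (hc b t)).trans (hgk _),
    fun x => congrArg g (H0 x), fun x => congrArg g (H1 x), fun b => congrArg k (h0 b),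
    fun b => congrArg k (h1 b)⟩

/-- Composition with a map of pairs. -/
def pull (g : C(K', K)) (hg : MapsTo g B' B) (p : PMap B r) : PMap B' r where
  f := p.f.comp g
  w := p.w.comp ⟨fun b => ⟨g b.1, hg b.2⟩, by fun_prop⟩
  comm b := p.comm ⟨g b.1, hg b.2⟩

theorem Hom.pull {p q : PMap B r} (h : p.Hom q) (g : C(K', K)) (hg : MapsTo g B' B) :
    (p.pull g hg).Hom (q.pull g hg) := by
  obtain ⟨H, h, hc, H0, H1, h0, h1⟩ := h
  exact ⟨H.comp ⟨fun x => (g x.1, x.2), by fun_prop⟩,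
    h.comp ⟨fun x => (⟨g x.1.1, hg x.1.2⟩, x.2), by fun_prop⟩,
    fun b t => hc ⟨g b.1, hg b.2⟩ t, fun x => H0 _, fun x => H1 _, fun b => h0 _, fun b => h1 _⟩

/-- Homotopic maps of pairs give homotopic composites. -/
theorem pull_hom {g g' : C(K', K)} (hg : MapsTo g B' B) (hg' : MapsTo g' B' B)
    (h : P259.Complex.PairHtpy B' B g g') (p : PMap B r) : (p.pull g hg).Hom (p.pull g' hg') := by
  obtain ⟨F, hF⟩ := h
  refine ⟨p.f.comp (F.toContinuousMap.comp ⟨fun x => (x.2, x.1), by fun_prop⟩),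
    p.w.comp ⟨fun x => ⟨F (x.2, x.1.1), hF x.2 _ x.1.2⟩, by fun_prop⟩,
    fun b t => p.comm ⟨F (t, b.1), hF t _ b.2⟩, fun x => congrArg p.f (F.apply_zero x),
    fun x => congrArg p.f (F.apply_one x), fun b => ?_, fun b => ?_⟩
  · exact congrArg p.w (Subtype.ext (F.apply_zero b.1))
  · exact congrArg p.w (Subtype.ext (F.apply_one b.1))

/-- Along an equivalence of pairs the composition is injective on classes. -/
theorem hom_of_pull_hom {g : C(K', K)} (hg : P259.Complex.PairEquiv B' B g) {p q : PMap B r}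
    (hpq : (p.pull g hg.1).Hom (q.pull g hg.1)) : p.Hom q := by
  obtain ⟨φ, hφ, -, hright⟩ := hg.2
  have h1 : ∀ u : PMap B r, ((u.pull g hg.1).pull φ hφ).Hom u := fun u =>
    pull_hom (hg.1.comp hφ) (g' := ContinuousMap.id K) (fun _ hx => hx) hright u
  exact ((h1 p).symm.trans (Hom.pull hpq φ hφ)).trans (h1 q)

/-- Along an equivalence of pairs the composition is surjective on classes. -/
theorem exists_pull_hom {g : C(K', K)} (hg : P259.Complex.PairEquiv B' B g) (u : PMap B' r) :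
    ∃ p : PMap B r, (p.pull g hg.1).Hom u := by
  obtain ⟨hm, φ, hφ, hleft, -⟩ := hg
  exact ⟨u.pull φ hφ, pull_hom (hφ.comp hm) (g' := ContinuousMap.id K') (fun _ hx => hx) hleft u⟩

/-- A homotopy of the boundary extends to a homotopy of pairs. -/
theorem exists_boundary (hB : IsBall B) (p : PMap B r) (h : C(B × I, Z))
    (h0 : ∀ b, h (b, 0) = p.w b) :
    ∃ q : PMap B r, (∀ b, q.w b = h (b, 1)) ∧ p.Hom q := by
  obtain ⟨H, H0, H1⟩ := hB.hep p.f (r.comp h) fun b =>
    (congrArg r (h0 b)).trans (p.comm b).symm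
  refine ⟨⟨H.comp ⟨fun x => (x, 1), by fun_prop⟩, h.comp ⟨fun b => (b, 1), by fun_prop⟩,
    fun b => H1 b 1⟩, fun _ => rfl, H, h, fun b t => H1 b t, H0, fun _ => rfl, h0, fun _ => rfl⟩

/-- Two maps of the boundary of a ball into a weakly contractible space are homotopic. -/
theorem exists_bdry_homotopy (hB : IsBall B) (hZ : WC Z) (w₀ w₁ : C(B, Z)) :
    ∃ h : C(B × I, Z), (∀ b, h (b, 0) = w₀ b) ∧ ∀ b, h (b, 1) = w₁ b := by
  classical
  let A : Bool → Set {p : B × I | p.2 ∈ ({0, 1} : Set I)} := fun i =>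
    {p | p.1.2 = if i then 1 else 0}
  obtain ⟨f, hf⟩ := exists_glue_closed (A := A)
    (fun i => isClosed_eq (by fun_prop) continuous_const)
    (fun p => by
      rcases p.2 with h | h
      · exact ⟨false, h⟩
      · exact ⟨true, h⟩)
    (fun i => (if i then w₁ else w₀).comp ⟨fun p => p.1.1.1, by fun_prop⟩)
    (fun i j x hi hj => by
      cases i <;> cases j
      · rfl
      · exact absurd (hi.symm.trans hj) (by simp)
      · exact absurd (hj.symm.trans hi) (by simp)
      · rfl)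
  obtain ⟨F, hF⟩ := hB.fills_bdry_prod isBall_interval Z hZ f
  refine ⟨F, fun b => ?_, fun b => ?_⟩
  · exact (hF ⟨(b, 0), Or.inl rfl⟩).trans (hf false ⟨_, rfl⟩)
  · exact (hF ⟨(b, 1), Or.inr rfl⟩).trans (hf true ⟨_, rfl⟩)

/-- In a weakly contractible space the boundary can be prescribed. -/
theorem exists_boundary_eq (hB : IsBall B) (hZ : WC Z) (p : PMap B r) (w : C(B, Z)) :
    ∃ q : PMap B r, q.w = w ∧ p.Hom q := by
  obtain ⟨h, h0, h1⟩ := exists_bdry_homotopy hB hZ p.w w
  obtain ⟨q, hq, hpq⟩ := p.exists_boundary hB h h0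
  exact ⟨q, ContinuousMap.ext fun b => (hq b).trans (h1 b), hpq⟩

/-- Every map of pairs is homotopic to a based one. -/
theorem exists_based (hB : IsBall B) (hZ : WC Z) (p : PMap B r) (z : Z) :
    ∃ q : PMap B r, q.w = ContinuousMap.const B z ∧ p.Hom q :=
  p.exists_boundary_eq hB hZ _

/-- With the boundary moving in a weakly contractible space, maps of pairs with one boundary map
are homotopic as maps of pairs iff they are homotopic relative to the boundary. -/
theorem hom_iff_homotopicRel (hB : IsBall B) (hZ : WC Z) {p q : PMap B r} (hw : p.w = q.w) :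
    p.Hom q ↔ p.f.HomotopicRel q.f B := by
  refine ⟨fun hpq => ?_, Hom.of_homotopicRel hw⟩
  obtain ⟨H, h, hc, H0, H1, h0, h1⟩ := hpq
  -- the square of boundary maps
  let A : Bool → Set {x : B × (I × I) | x.2 ∈ {y : I × I | y.1 ∈ ({0, 1} : Set I) ∨ y.2 ∈ ({0, 1} : Set I)}} :=
    fun i => if i then {x | x.1.2.2 = 0} else {x | x.1.2.1 ∈ ({0, 1} : Set I) ∨ x.1.2.2 = 1}
  have hA : ∀ i, IsClosed (A i) := by
    intro i
    cases i
    · exact (isBall_interval.isClosed_bdry.preimage (by fun_prop)).union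
        (isClosed_eq (by fun_prop) continuous_const)
    · exact isClosed_eq (by fun_prop) continuous_const
  let g₁ : C(A true, Z) := h.comp ⟨fun x => (x.1.1.1, x.1.1.2.1), by fun_prop⟩
  let g₀ : C(A false, Z) := p.w.comp ⟨fun x => x.1.1.1, by fun_prop⟩
  have hag : ∀ x (e₁ : x ∈ A true) (e₀ : x ∈ A false), g₁ ⟨x, e₁⟩ = g₀ ⟨x, e₀⟩ := by
    rintro ⟨⟨b, t, s⟩, hx⟩ (hs : s = 0) (hts : t ∈ ({0, 1} : Set I) ∨ s = 1)
    rcases hts with (ht | ht) | hs'
    · show h (b, t) = p.w b
      rw [show t = 0 from ht]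
      exact h0 b
    · show h (b, t) = p.w b
      rw [show t = 1 from ht, h1, hw]
    · rw [hs] at hs'
      exact absurd hs' zero_ne_one
  obtain ⟨f, hf⟩ := exists_glue_closed hA
    (fun x => by
      rcases x.2 with h' | h' | h'
      · exact ⟨false, Or.inl h'⟩
      · exact ⟨true, h'⟩
      · exact ⟨false, Or.inr h'⟩)
    (fun i => Bool.rec (motive := fun i => C(A i, Z)) g₀ g₁ i)
    (fun i j x hi hj => by
      cases i <;> cases j
      · rfl
      · exact (hag x hj hi).symm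
      · exact hag x hi hj
      · rfl)
  obtain ⟨k, hk⟩ := hB.fills_bdry_prod (isBall_interval.prod isBall_interval) Z hZ f
  have k0 : ∀ b t, k (b, (t, 0)) = h (b, t) := fun b t =>
    (hk ⟨(b, (t, 0)), Or.inr (Or.inl rfl)⟩).trans (hf true ⟨_, rfl⟩)
  have kt : ∀ b t s, t ∈ ({0, 1} : Set I) → k (b, (t, s)) = p.w b := fun b t s ht =>
    (hk ⟨(b, (t, s)), Or.inl ht⟩).trans (hf false ⟨_, Or.inl ht⟩)
  have k1 : ∀ b t, k (b, (t, 1)) = p.w b := fun b t =>
    (hk ⟨(b, (t, 1)), Or.inr (Or.inr rfl)⟩).trans (hf false ⟨_, Or.inr rfl⟩)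
  -- deform the homotopy on the cylinder
  let D : Set (K × I) := {x | x.1 ∈ B ∨ x.2 ∈ ({0, 1} : Set I)}
  let C : Option Bool → Set (D × I) := fun i =>
    i.elim {y | y.1.1.1 ∈ B} fun e => {y | y.1.1.2 = if e then 1 else 0}
  let c : ∀ i, C(C i, W) := fun i => match i with
    | none => r.comp (k.comp ⟨fun y => (⟨y.1.1.1.1, y.2⟩, (y.1.1.1.2, y.1.2)), by fun_prop⟩)
    | some false => p.f.comp ⟨fun y => y.1.1.1.1, by fun_prop⟩
    | some true => q.f.comp ⟨fun y => y.1.1.1.1, by fun_prop⟩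
  have hCclosed : ∀ i, IsClosed (C i) := by
    rintro (_ | e)
    · exact hB.isClosed_bdry.preimage (by fun_prop)
    · exact isClosed_eq (by fun_prop) continuous_const
  have hck : ∀ (e : Bool) y (hy : y ∈ C none) (hy' : y ∈ C (some e)),
      c none ⟨y, hy⟩ = c (some e) ⟨y, hy'⟩ := by
    rintro e ⟨⟨⟨x, t⟩, hx⟩, s⟩ (hy : x ∈ B) (hy' : t = if e then 1 else 0)
    show r (k (⟨x, hy⟩, (t, s))) = _
    cases e
    · refine (congrArg r (kt _ _ _ (Or.inl (hy'.trans (by simp))))).trans ?_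
      exact (p.comm ⟨x, hy⟩).symm
    · refine (congrArg r (kt _ _ _ (Or.inr (hy'.trans (by simp))))).trans ?_
      rw [hw]
      exact (q.comm ⟨x, hy⟩).symm
  obtain ⟨m, hm⟩ := exists_glue_closed hCclosed
    (fun y => by
      rcases y.1.2 with h' | h' | h'
      · exact ⟨none, h'⟩
      · exact ⟨some false, h'⟩
      · exact ⟨some true, h'⟩)
    c (fun i j y hi hj => by
      rcases i with _ | (_ | _) <;> rcases j with _ | (_ | _)
      all_goals first
        | rfl
        | exact hck _ y hi hj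
        | exact (hck _ y hj hi).symm
        | exact absurd ((show y.1.1.2 = _ from hi).symm.trans hj) (by simp))
  obtain ⟨G, G0, G1⟩ := ((hB.prod isBall_interval).hep H m) (by
    rintro ⟨⟨x, t⟩, hx | hx | hx⟩
    · rw [hm none ⟨_, hx⟩]
      exact (congrArg r (k0 ⟨x, hx⟩ t)).trans (hc ⟨x, hx⟩ t).symm
    · rw [hm (some false) ⟨_, hx⟩]
      show p.f x = H (x, t)
      rw [show t = 0 from hx, H0]
    · rw [hm (some true) ⟨_, hx⟩]
      show q.f x = H (x, t)
      rw [show t = 1 from hx, H1])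
  refine ⟨⟨⟨G.comp ⟨fun y => ((y.2, y.1), 1), by fun_prop⟩, fun x => ?_, fun x => ?_⟩,
    fun t x hx => ?_⟩⟩
  · exact (G1 ⟨(x, 0), Or.inr (Or.inl rfl)⟩ 1).trans (hm (some false) ⟨_, rfl⟩)
  · exact (G1 ⟨(x, 1), Or.inr (Or.inr rfl)⟩ 1).trans (hm (some true) ⟨_, rfl⟩)
  · refine (G1 ⟨(x, t), Or.inl hx⟩ 1).trans ((hm none ⟨_, hx⟩).trans ?_)
    exact (congrArg r (k1 ⟨x, hx⟩ t)).trans (p.comm ⟨x, hx⟩).symm

end PMap

end

end Vale.Agent.P259
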