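import Vale.Agent.P259.Top.Pair

/-!
# P259, Top: the carrier lemma for discs

Spaces indexed by dimension with two coherent maps upwards carry natural families of maps of
discs; if the spaces are weakly contractible such a family exists and any two are homotopic by a
natural homotopy. Spaces indexed by the sides of one disc are the case `V j = V_{j,0} × V_{j,1}`.
-/

namespace Vale.Agent.P259

open Set
open scoped Topology unitInterval

noncomputable section

/-- Spaces indexed by dimension with the two coherent maps upwards. -/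
structure DiscTower : Type 1 where
  V : ℕ → Type
  [top : ∀ j, TopologicalSpace (V j)]
  d : Bool → ∀ j, C(V j, V (j + 1))
  coh : ∀ e j x, d false (j + 1) (d e j x) = d true (j + 1) (d e j x)

attribute [instance] DiscTower.top

namespace DiscTower

variable (T : DiscTower)

/-- Maps of discs natural in the two sides. -/
structure Fam : Type where
  u : ∀ j, C(Ball j, T.V j)
  nat : ∀ e j v, u (j + 1) (hemi e j v) = T.d e j (u j v)

variable {T}

/-- The two images of a member of a family agree on the sphere. -/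
theorem Fam.rim_eq (F : T.Fam) {j : ℕ} {v : Ball j} (hv : v ∈ rim j) :
    T.d false j (F.u j v) = T.d true j (F.u j v) := by
  cases j with
  | zero => exact absurd hv (by simp [Ball.rim_zero])
  | succ j =>
    obtain ⟨e, v, rfl⟩ := Ball.exists_hemi hv
    rw [F.nat, T.coh]

/-- Natural families exist. -/
theorem exists_fam (hT : ∀ j, WC (T.V j)) : Nonempty T.Fam := by
  let Stage : ℕ → Type := fun n =>
    {f : C(Ball n, T.V n) // ∀ v ∈ rim n, T.d false n (f v) = T.d true n (f v)}
  have step : ∀ n (f : Stage n), ∃ g : Stage (n + 1),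
      ∀ e v, g.1 (hemi e n v) = T.d e n (f.1 v) := by
    intro n f
    obtain ⟨c, hc⟩ := Ball.exists_glue (K := Unit)
      (fun e => ((T.d e n).comp f.1).comp ⟨Prod.fst, continuous_fst⟩) (fun v hv _ => f.2 v hv)
    obtain ⟨F, hF⟩ := hT (n + 1) (n + 1) (c.comp ⟨fun w => (w, ()), by fun_prop⟩)
    have hh : ∀ e v, F (hemi e n v) = T.d e n (f.1 v) := fun e v =>
      (hF ⟨_, Ball.hemi_mem_rim e v⟩).trans (hc e v ())
    refine ⟨⟨F, fun v hv => ?_⟩, hh⟩
    obtain ⟨e, v, rfl⟩ := Ball.exists_hemi hv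
    rw [hh, T.coh]
  obtain ⟨p⟩ := (hT 0).nonempty
  let f : ∀ n, Stage n := fun n => Nat.rec
    ⟨ContinuousMap.const _ p, fun v hv => absurd hv (by simp [Ball.rim_zero])⟩
    (fun m g => (step m g).choose) n
  exact ⟨⟨fun j => (f j).1, fun e j v => (step j (f j)).choose_spec e v⟩⟩

/-- **Carrier lemma for discs**: two natural families are homotopic by a natural homotopy. -/
theorem exists_fam_homotopy (hT : ∀ j, WC (T.V j)) (F F' : T.Fam) :
    ∃ H : ∀ j, C(Ball j × I, T.V j), (∀ j v, H j (v, 0) = F.u j v) ∧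
      (∀ j v, H j (v, 1) = F'.u j v) ∧
        ∀ e j v t, H (j + 1) (hemi e j v, t) = T.d e j (H j (v, t)) := by
  let Stage : ℕ → Type := fun n =>
    {H : C(Ball n × I, T.V n) // (∀ v, H (v, 0) = F.u n v) ∧ (∀ v, H (v, 1) = F'.u n v) ∧
      ∀ v ∈ rim n, ∀ t, T.d false n (H (v, t)) = T.d true n (H (v, t))}
  have step : ∀ n (H : Stage n), ∃ G : Stage (n + 1),
      ∀ e v t, G.1 (hemi e n v, t) = T.d e n (H.1 (v, t)) := by
    intro n H
    obtain ⟨c, hc⟩ := Ball.exists_glue (fun e => (T.d e n).comp H.1) H.2.2.2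
    obtain ⟨G, G0, G1, G2⟩ := (hT (n + 1)).exists_homotopy (F.u (n + 1)) (F'.u (n + 1)) c
      (fun w => by
        obtain ⟨e, v, hv⟩ := Ball.exists_hemi w.2
        obtain rfl : (⟨hemi e n v, Ball.hemi_mem_rim e v⟩ : rim (n + 1)) = w := Subtype.ext hv
        rw [hc, F.nat]
        exact congrArg (T.d e n) (H.2.1 v))
      (fun w => by
        obtain ⟨e, v, hv⟩ := Ball.exists_hemi w.2
        obtain rfl : (⟨hemi e n v, Ball.hemi_mem_rim e v⟩ : rim (n + 1)) = w := Subtype.ext hv
        rw [hc, F'.nat]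
        exact congrArg (T.d e n) (H.2.2.1 v))
    have hh : ∀ e v t, G (hemi e n v, t) = T.d e n (H.1 (v, t)) := fun e v t =>
      (G2 ⟨_, Ball.hemi_mem_rim e v⟩ t).trans (hc e v t)
    refine ⟨⟨G, G0, G1, fun v hv t => ?_⟩, hh⟩
    obtain ⟨e, v, rfl⟩ := Ball.exists_hemi hv
    rw [hh, T.coh]
  have base : Nonempty (Stage 0) := by
    have : IsEmpty (rim 0) := ⟨fun v => by simpa [Ball.rim_zero] using v.2⟩
    obtain ⟨H, H0, H1, -⟩ := (hT 0).exists_homotopy (F.u 0) (F'.u 0)
      ⟨fun p => isEmptyElim p.1, continuous_iff_continuousAt.2 fun p => isEmptyElim p.1⟩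
      (fun v => isEmptyElim v) (fun v => isEmptyElim v)
    exact ⟨⟨H, H0, H1, fun v hv => absurd hv (by simp [Ball.rim_zero])⟩⟩
  obtain ⟨s⟩ := base
  let H : ∀ n, Stage n := fun n => Nat.rec s (fun m g => (step m g).choose) n
  exact ⟨fun j => (H j).1, fun j => (H j).2.1, fun j => (H j).2.2.1,
    fun e j v t => (step j (H j)).choose_spec e v t⟩

variable {W : Type} [TopologicalSpace W]

/-- The map of the sphere carried by one level of a family. -/
theorem exists_sphere (F : T.Fam) (n : ℕ) (r : Bool → C(T.V n, W))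
    (hr : ∀ j (h : j + 1 = n) e y,
      r false (h ▸ T.d e j y : T.V n) = r true (h ▸ T.d e j y : T.V n)) :
    ∃ w : C(rim (n + 1), W), ∀ e v, w ⟨hemi e n v, Ball.hemi_mem_rim e v⟩ = r e (F.u n v) := by
  obtain ⟨c, hc⟩ := Ball.exists_glue (K := Unit)
    (fun e => ((r e).comp (F.u n)).comp ⟨Prod.fst, continuous_fst⟩)
    (fun v hv _ => by
      cases n with
      | zero => exact absurd hv (by simp [Ball.rim_zero])
      | succ j =>
        obtain ⟨e, v, rfl⟩ := Ball.exists_hemi hv
        show r false (F.u (j + 1) (hemi e j v)) = r true (F.u (j + 1) (hemi e j v))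
        rw [F.nat]
        exact hr j rfl e _)
  exact ⟨c.comp ⟨fun w => (w, ()), by fun_prop⟩, fun e v => hc e v ()⟩

/-- Two carried maps of the sphere are homotopic by a carried homotopy. -/
theorem exists_sphere_homotopy (hT : ∀ j, WC (T.V j)) (F F' : T.Fam) (n : ℕ)
    (r : Bool → C(T.V n, W)) (hr : ∀ j (h : j + 1 = n) e y,
      r false (h ▸ T.d e j y : T.V n) = r true (h ▸ T.d e j y : T.V n))
    (w w' : C(rim (n + 1), W))
    (hw : ∀ e v, w ⟨hemi e n v, Ball.hemi_mem_rim e v⟩ = r e (F.u n v))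
    (hw' : ∀ e v, w' ⟨hemi e n v, Ball.hemi_mem_rim e v⟩ = r e (F'.u n v)) :
    ∃ (H : C(Ball n × I, T.V n)) (h : C(rim (n + 1) × I, W)),
      (∀ e v t, h (⟨hemi e n v, Ball.hemi_mem_rim e v⟩, t) = r e (H (v, t))) ∧
      (∀ v, h (v, 0) = w v) ∧ ∀ v, h (v, 1) = w' v := by
  obtain ⟨H, H0, H1, hn⟩ := exists_fam_homotopy hT F F'
  have hag : ∀ v ∈ rim n, ∀ t, r false (H n (v, t)) = r true (H n (v, t)) := by
    intro v hv t
    cases n with
    | zero => exact absurd hv (by simp [Ball.rim_zero])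
    | succ j =>
      obtain ⟨e, v, rfl⟩ := Ball.exists_hemi hv
      rw [hn]
      exact hr j rfl e _
  obtain ⟨h, hh⟩ := Ball.exists_glue (fun e => (r e).comp (H n)) hag
  refine ⟨H n, h, fun e v t => hh e v t, fun x => ?_, fun x => ?_⟩
  · obtain ⟨e, v, hv⟩ := Ball.exists_hemi x.2
    obtain rfl : (⟨hemi e n v, Ball.hemi_mem_rim e v⟩ : rim (n + 1)) = x := Subtype.ext hv
    rw [hh, hw]
    exact congrArg (r e) (H0 n v)
  · obtain ⟨e, v, hv⟩ := Ball.exists_hemi x.2
    obtain rfl : (⟨hemi e n v, Ball.hemi_mem_rim e v⟩ : rim (n + 1)) = x := Subtype.ext hv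
    rw [hh, hw']
    exact congrArg (r e) (H1 n v)

end DiscTower

end

end Vale.Agent.P259
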