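import Vale.Agent.P259.Top.Pair

/-!
# P259, Top: the carrier lemma

Finitely many closed cells, each a ball whose sphere is the union of the lower cells; spaces
indexed by the cells. If the spaces are weakly contractible, carried maps exist, extend from
subcomplexes, and any two of them are homotopic by a carried homotopy.
-/

namespace Vale.Agent.P259

open Set
open scoped Topology unitInterval

noncomputable section

/-- A space with closed cells indexed by a poset, each a ball bounded by the lower cells. -/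
structure Cells (K : Type) [TopologicalSpace K] (ι : Type) [PartialOrder ι] : Type where
  cell : ι → Set K
  closed : ∀ c, IsClosed (cell c)
  mono : ∀ {a b}, a ≤ b → cell a ⊆ cell b
  meet : ∀ {a b x}, x ∈ cell a → x ∈ cell b → ∃ c, c ≤ a ∧ c ≤ b ∧ x ∈ cell c
  ball : ∀ c, IsBall {x : cell c | ∃ c', c' < c ∧ (x : K) ∈ cell c'}

/-- Spaces indexed by a poset of cells. -/
structure CellSpaces (ι : Type) [PartialOrder ι] : Type 1 where
  V : ι → Type
  [top : ∀ c, TopologicalSpace (V c)]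
  tr : ∀ {a b}, a ≤ b → C(V a, V b)
  tr_refl : ∀ {a} (h : a ≤ a) x, tr h x = x
  tr_trans : ∀ {a b c} (h : a ≤ b) (h' : b ≤ c) x, tr h' (tr h x) = tr (h.trans h') x

attribute [instance] CellSpaces.top

namespace Cells

variable {K : Type} [TopologicalSpace K] {ι : Type} [PartialOrder ι] (C : Cells K ι)
  (S : CellSpaces ι)

/-- A family of maps of cells is carried on a set of cells. -/
def Compat (L : Set ι) (u : ∀ c, C(C.cell c, S.V c)) : Prop :=
  ∀ a b (h : a < b), b ∈ L → ∀ x : C.cell a, S.tr h.le (u a x) = u b ⟨x.1, C.mono h.le x.2⟩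

/-- A carried family glues to a map of the union of its cells. -/
theorem exists_map [Finite ι] {L : Set ι} {u : ∀ c, C(C.cell c, S.V c)} (hu : C.Compat S L u)
    {W : Type} [TopologicalSpace W] (r : ∀ c, C(S.V c, W))
    (hr : ∀ {a b} (h : a ≤ b) x, r b (S.tr h x) = r a x) :
    ∃ F : C({x | ∃ c ∈ L, x ∈ C.cell c}, W),
      ∀ c (hc : c ∈ L) (x : C.cell c), F ⟨x.1, c, hc, x.2⟩ = r c (u c x) := by
  have key : ∀ d a, d ≤ a → a ∈ L → ∀ x (hd : x ∈ C.cell d) (ha : x ∈ C.cell a),
      r d (u d ⟨x, hd⟩) = r a (u a ⟨x, ha⟩) := by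
    intro d a hda ha' x hd ha
    rcases hda.eq_or_lt with rfl | h
    · rfl
    · rw [← hu d a h ha' ⟨x, hd⟩, hr]
  obtain ⟨F, hF⟩ := exists_glue_closed
    (A := fun c : L => {x : {x | ∃ c ∈ L, x ∈ C.cell c} | x.1 ∈ C.cell c})
    (fun c => (C.closed _).preimage continuous_subtype_val)
    (fun x => by
      obtain ⟨c, hc, hx⟩ := x.2
      exact ⟨⟨c, hc⟩, hx⟩)
    (fun c => (r c.1).comp ((u c.1).comp ⟨fun x => ⟨x.1.1, x.2⟩, by fun_prop⟩))
    (fun a b x ha hb => by
      obtain ⟨d, hda, hdb, hd⟩ := C.meet ha hb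
      exact (key d a hda a.2 _ hd ha).symm.trans (key d b hdb b.2 _ hd hb))
  exact ⟨F, fun c hc x => hF ⟨c, hc⟩ ⟨⟨x.1, c, hc, x.2⟩, x.2⟩⟩

/-- **Carrier lemma**: carried families extend from subcomplexes. -/
theorem exists_extend [Finite ι] {L : Set ι} (hL : IsLowerSet L) (hS : ∀ c ∉ L, WC (S.V c))
    {u : ∀ c, C(C.cell c, S.V c)} (hu : C.Compat S L u) :
    ∃ u' : ∀ c, C(C.cell c, S.V c), C.Compat S univ u' ∧ ∀ c ∈ L, u' c = u c := by
  classical
  induction hn : Lᶜ.ncard using Nat.strong_induction_on generalizing L u with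
  | _ n ih =>
  by_cases hall : L = univ
  · subst hall
    exact ⟨u, hu, fun _ _ => rfl⟩
  obtain ⟨c₀, hc₀, hmin⟩ :=
    (toFinite Lᶜ).exists_minimal (nonempty_compl.2 hall)
  have hlow : ∀ c, c < c₀ → c ∈ L := fun c hc => by
    by_contra h
    exact (hc.trans_le (hmin h hc.le)).false
  have hu' : C.Compat S {c | c < c₀} u := fun a b h hb => hu a b h (hlow b hb)
  -- the boundary map of the new cell
  obtain ⟨f, hf⟩ : ∃ f : C({x : C.cell c₀ | ∃ c' < c₀, (x : K) ∈ C.cell c'}, S.V c₀),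
      ∀ c (hc : c < c₀) (x : C.cell c),
        f ⟨⟨x.1, C.mono hc.le x.2⟩, c, hc, x.2⟩ = S.tr hc.le (u c x) := by
    obtain ⟨F, hF⟩ := exists_glue_closed
      (A := fun c : {c // c < c₀} =>
        {x : {x : C.cell c₀ | ∃ c' < c₀, (x : K) ∈ C.cell c'} | x.1.1 ∈ C.cell c})
      (fun c => (C.closed _).preimage (continuous_subtype_val.comp continuous_subtype_val))
      (fun x => by
        obtain ⟨c, hc, hx⟩ := x.2
        exact ⟨⟨c, hc⟩, hx⟩)
      (fun c => (S.tr c.2.le).comp ((u c.1).comp ⟨fun x => ⟨x.1.1.1, x.2⟩, by fun_prop⟩))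
      (fun a b x ha hb => by
        obtain ⟨d, hda, hdb, hd⟩ := C.meet ha hb
        have key : ∀ (a : {c // c < c₀}) (h : d ≤ a.1) (ha : x.1.1 ∈ C.cell a),
            S.tr a.2.le (u a.1 ⟨x.1.1, ha⟩) = S.tr (h.trans a.2.le) (u d ⟨x.1.1, hd⟩) := by
          intro a h ha
          rcases h.eq_or_lt with e | h'
          · subst e
            rfl
          · rw [← hu' d a h' a.2 ⟨x.1.1, hd⟩, S.tr_trans]
        exact (key a hda ha).trans (key b hdb hb).symm)
    exact ⟨F, fun c hc x => hF ⟨c, hc⟩ ⟨⟨⟨x.1, C.mono hc.le x.2⟩, c, hc, x.2⟩, x.2⟩⟩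
  obtain ⟨g, hg⟩ := (C.ball c₀).fills (S.V c₀) (hS c₀ hc₀) f
  let v := Function.update u c₀ g
  have hv : ∀ c ∈ L, v c = u c := fun c hc =>
    Function.update_of_ne (fun e : c = c₀ => hc₀ (e ▸ hc)) _ _
  have hvL : C.Compat S (insert c₀ L) v := by
    intro a b h hb x
    rcases hb with rfl | hb
    · rw [hv a (hlow a h), show v b = g from Function.update_self _ _ _]
      exact (hf a h x).symm.trans (hg ⟨⟨x.1, C.mono h.le x.2⟩, a, h, x.2⟩).symm
    · rw [hv a (hL h.le hb), hv b hb]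
      exact hu a b h hb x
  have hlow' : IsLowerSet (insert c₀ L) := by
    intro b a hab hb
    rcases hab.eq_or_lt with rfl | h
    · exact hb
    · rcases hb with rfl | hb
      · exact Or.inr (hlow a h)
      · exact Or.inr (hL hab hb)
  have hcard : (insert c₀ L)ᶜ.ncard < n := by
    rw [← hn]
    exact ncard_lt_ncard (compl_lt_compl_iff_lt.2 (ssubset_insert hc₀)) (toFinite _)
  obtain ⟨u', hu', he⟩ := ih _ hcard hlow' (fun c hc => hS c fun h => hc (Or.inr h)) hvL rfl
  exact ⟨u', hu', fun c hc => (he c (Or.inr hc)).trans (hv c hc)⟩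

/-- Carried families exist. -/
theorem exists_carried [Finite ι] (hS : ∀ c, WC (S.V c)) :
    ∃ u : ∀ c, C(C.cell c, S.V c), C.Compat S univ u := by
  obtain ⟨u, hu, -⟩ := C.exists_extend S (L := ∅) (fun _ _ _ h => h.elim) (fun c _ => hS c)
    (u := fun c => ContinuousMap.const _ (hS c).nonempty.some) fun _ _ _ h => h.elim
  exact ⟨u, hu⟩

variable {K' : Type} [TopologicalSpace K'] {ι' : Type} [PartialOrder ι']

/-- The product cells. -/
def prod (C' : Cells K' ι') : Cells (K × K') (ι × ι') where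
  cell c := C.cell c.1 ×ˢ C'.cell c.2
  closed c := (C.closed _).prod (C'.closed _)
  mono h := prod_mono (C.mono h.1) (C'.mono h.2)
  meet ha hb := by
    obtain ⟨c, h1, h2, hc⟩ := C.meet ha.1 hb.1
    obtain ⟨c', h1', h2', hc'⟩ := C'.meet ha.2 hb.2
    exact ⟨(c, c'), ⟨h1, h1'⟩, ⟨h2, h2'⟩, hc, hc'⟩
  ball c := by
    refine ((C.ball c.1).prod (C'.ball c.2)).of_homeomorph
      (Homeomorph.Set.prod _ _).symm fun p => ?_
    constructor
    · rintro ⟨⟨a, b⟩, hab, ha, hb⟩
      rcases Prod.lt_iff.1 hab with ⟨h, -⟩ | ⟨-, h⟩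
      · exact Or.inl ⟨a, h, ha⟩
      · exact Or.inr ⟨b, h, hb⟩
    · rintro (⟨a, h, ha⟩ | ⟨b, h, hb⟩)
      · exact ⟨(a, c.2), Prod.lt_iff.2 (Or.inl ⟨h, le_rfl⟩), ha, p.2.2⟩
      · exact ⟨(c.1, b), Prod.lt_iff.2 (Or.inr ⟨le_rfl, h⟩), p.1.2, hb⟩

end Cells

/-- The cells of the interval. -/
abbrev IntervalCell : Type := {s : Finset Bool // s.Nonempty}

/-- The interval as two ends and one edge. -/
def intervalCells : Cells I IntervalCell where
  cell s := {t | s.1 = Finset.univ ∨ (t = 0 ∧ false ∈ s.1) ∨ (t = 1 ∧ true ∈ s.1)}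
  closed s := by
    by_cases h : s.1 = Finset.univ
    · simp [h]
    · exact Set.Finite.isClosed ((Set.finite_singleton (1 : I)).insert 0 |>.subset fun t ht => by
        rcases ht with h' | ⟨rfl, -⟩ | ⟨rfl, -⟩
        · exact absurd h' h
        · exact Or.inl rfl
        · exact Or.inr rfl)
  mono {a b} h t ht := by
    rcases ht with h' | ⟨rfl, h'⟩ | ⟨rfl, h'⟩
    · exact Or.inl (Finset.univ_subset_iff.1 (h' ▸ h))
    · exact Or.inr (Or.inl ⟨rfl, h h'⟩)
    · exact Or.inr (Or.inr ⟨rfl, h h'⟩)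
  meet {a b x} ha hb := by
    rcases ha with h | ⟨rfl, h⟩ | ⟨rfl, h⟩
    · refine ⟨b, ?_, le_rfl, hb⟩
      show b.1 ⊆ a.1
      rw [h]
      exact Finset.subset_univ _
    · refine ⟨⟨{false}, Finset.singleton_nonempty _⟩, Finset.singleton_subset_iff.2 h,
        Finset.singleton_subset_iff.2 ?_, Or.inr (Or.inl ⟨rfl, by simp⟩)⟩
      rcases hb with h' | ⟨-, h'⟩ | ⟨h', -⟩
      · simp [h']
      · exact h'
      · exact absurd h' zero_ne_one
    · refine ⟨⟨{true}, Finset.singleton_nonempty _⟩, Finset.singleton_subset_iff.2 h,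
        Finset.singleton_subset_iff.2 ?_, Or.inr (Or.inr ⟨rfl, by simp⟩)⟩
      rcases hb with h' | ⟨h', -⟩ | ⟨-, h'⟩
      · simp [h']
      · exact absurd h' one_ne_zero
      · exact h'
  ball s := by
    by_cases h : s.1 = Finset.univ
    · refine isBall_interval.of_homeomorph
        ((Homeomorph.Set.univ I).symm.trans (Homeomorph.setCongr (eq_univ_of_forall fun t => Or.inl h).symm))
        fun t => ?_
      constructor
      · rintro ⟨a, ha, h' | ⟨ht, -⟩ | ⟨ht, -⟩⟩
        · exact absurd (h.trans h'.symm) (fun e => ha.ne (Subtype.ext e.symm))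
        · exact Or.inl ht
        · exact Or.inr ht
      · rintro (ht | ht)
        · refine ⟨⟨{false}, Finset.singleton_nonempty _⟩, ?_, Or.inr (Or.inl ⟨ht, by simp⟩)⟩
          refine lt_of_le_of_ne ?_ fun e => ?_
          · show ({false} : Finset Bool) ⊆ s.1
            simp [h]
          · have e' : ({false} : Finset Bool) = Finset.univ := (congrArg Subtype.val e).trans h
            simp [Finset.ext_iff] at e'
        · refine ⟨⟨{true}, Finset.singleton_nonempty _⟩, ?_, Or.inr (Or.inr ⟨ht, by simp⟩)⟩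
          refine lt_of_le_of_ne ?_ fun e => ?_
          · show ({true} : Finset Bool) ⊆ s.1
            simp [h]
          · have e' : ({true} : Finset Bool) = Finset.univ := (congrArg Subtype.val e).trans h
            simp [Finset.ext_iff] at e'
    · obtain ⟨e, he⟩ : ∃ e, s.1 = {e} := by
        obtain ⟨⟨_ | _, he⟩⟩ := s.2.to_subtype
        · exact ⟨false, Finset.eq_singleton_iff_unique_mem.2 ⟨he, fun x hx => by
            cases x
            · rfl
            · exact absurd (Finset.eq_univ_of_forall fun y => by cases y <;> assumption) h⟩⟩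
        · exact ⟨true, Finset.eq_singleton_iff_unique_mem.2 ⟨he, fun x hx => by
            cases x
            · exact absurd (Finset.eq_univ_of_forall fun y => by cases y <;> assumption) h
            · rfl⟩⟩
      have : Subsingleton ↥{t : I | s.1 = Finset.univ ∨ (t = 0 ∧ false ∈ s.1) ∨ (t = 1 ∧ true ∈ s.1)} :=
        ⟨fun x y => Subtype.ext (by
          obtain ⟨x, hx | ⟨rfl, hx⟩ | ⟨rfl, hx⟩⟩ := x <;>
            obtain ⟨y, hy | ⟨rfl, hy⟩ | ⟨rfl, hy⟩⟩ := y <;> first
            | rfl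
            | exact absurd hx h
            | exact absurd hy h
            | (rw [he, Finset.mem_singleton] at hx hy; exact absurd (hx.trans hy.symm) (by decide)))⟩
      let p : ↥{t : I | s.1 = Finset.univ ∨ (t = 0 ∧ false ∈ s.1) ∨ (t = 1 ∧ true ∈ s.1)} :=
        ⟨if e then 1 else 0, by cases e <;> simp [he]⟩
      refine (isBall_rim 0).of_homeomorph
        { toFun := fun _ => p
          invFun := fun _ => Ball.pt
          left_inv := fun _ => Subsingleton.elim _ _
          right_inv := fun _ => Subsingleton.elim _ _ } fun v => ?_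
      simp only [Ball.rim_zero, mem_empty_iff_false, iff_false]
      rintro ⟨a, ha, -⟩
      have : a.1 = s.1 := by
        rw [he]
        exact (Finset.subset_singleton_iff.1 (he ▸ ha.le)).resolve_left a.2.ne_empty
      exact ha.ne (Subtype.ext this)

namespace Cells

variable {K : Type} [TopologicalSpace K] {ι : Type} [PartialOrder ι] (C : Cells K ι)
  (S : CellSpaces ι)

/-- The spaces over the cells of a cylinder. -/
def _root_.Vale.Agent.P259.CellSpaces.cyl : CellSpaces (ι × IntervalCell) where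
  V c := S.V c.1
  tr h := S.tr h.1
  tr_refl _ x := S.tr_refl _ x
  tr_trans _ _ x := S.tr_trans _ _ x

/-- The whole interval as a cell. -/
def edge : IntervalCell := ⟨Finset.univ, Finset.univ_nonempty⟩

/-- A carried homotopy. -/
def CompatH (L : Set ι) (H : ∀ c, C(C.cell c × I, S.V c)) : Prop :=
  ∀ a b (h : a < b), b ∈ L → ∀ (x : C.cell a) t,
    S.tr h.le (H a (x, t)) = H b (⟨x.1, C.mono h.le x.2⟩, t)

/-- **Carrier lemma, homotopies**: two carried families are homotopic by a carried homotopy,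
extending a given one on a subcomplex. -/
theorem exists_homotopy_extend [Finite ι] {L : Set ι} (hL : IsLowerSet L)
    (hS : ∀ c ∉ L, WC (S.V c)) {u u' : ∀ c, C(C.cell c, S.V c)} (hu : C.Compat S univ u)
    (hu' : C.Compat S univ u') {h : ∀ c, C(C.cell c × I, S.V c)} (hh : C.CompatH S L h)
    (h0 : ∀ c ∈ L, ∀ x, h c (x, 0) = u c x) (h1 : ∀ c ∈ L, ∀ x, h c (x, 1) = u' c x) :
    ∃ H : ∀ c, C(C.cell c × I, S.V c), C.CompatH S univ H ∧
      (∀ c x, H c (x, 0) = u c x) ∧ (∀ c x, H c (x, 1) = u' c x) ∧ ∀ c ∈ L, H c = h c := by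
  classical
  let P := C.prod intervalCells
  let L' : Set (ι × IntervalCell) := {p | p.2 = edge → p.1 ∈ L}
  have hedge : ∀ s : IntervalCell, edge ≤ s → s = edge := fun s hs =>
    Subtype.ext (Finset.univ_subset_iff.1 hs)
  have hL' : IsLowerSet L' := fun b a hab hb ha =>
    hL hab.1 (hb (hedge _ (ha ▸ hab.2)))
  have hsingle : ∀ s : IntervalCell, s ≠ edge → ∀ t ∈ intervalCells.cell s,
      (t = 0 ∧ s.1 = {false}) ∨ (t = 1 ∧ s.1 = {true}) := by
    rintro s hs t (ht | ⟨rfl, hm⟩ | ⟨rfl, hm⟩)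
    · exact absurd (Subtype.ext ht) hs
    · refine Or.inl ⟨rfl, Finset.eq_singleton_iff_unique_mem.2 ⟨hm, fun x hx => ?_⟩⟩
      cases x
      · rfl
      · exact absurd (Subtype.ext (Finset.eq_univ_of_forall fun y => by cases y <;> assumption)) hs
    · refine Or.inr ⟨rfl, Finset.eq_singleton_iff_unique_mem.2 ⟨hm, fun x hx => ?_⟩⟩
      cases x
      · exact absurd (Subtype.ext (Finset.eq_univ_of_forall fun y => by cases y <;> assumption)) hs
      · rfl
  let F : ∀ p : ι × IntervalCell, C(P.cell p, S.cyl.V p) := fun p =>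
    if p.2 = edge then (h p.1).comp ⟨fun x => (⟨x.1.1, x.2.1⟩, x.1.2), by fun_prop⟩
    else (if p.2.1 = {false} then u p.1 else u' p.1).comp ⟨fun x => ⟨x.1.1, x.2.1⟩, by fun_prop⟩
  have hFe : ∀ (c : ι) (x : P.cell (c, edge)),
      F (c, edge) x = h c (⟨x.1.1, x.2.1⟩, x.1.2) := by
    intro c x
    simp [F]
    rfl
  have hFs : ∀ (c : ι) (s : IntervalCell), s ≠ edge → ∀ x : P.cell (c, s),
      F (c, s) x = if s.1 = {false} then u c ⟨x.1.1, x.2.1⟩ else u' c ⟨x.1.1, x.2.1⟩ := by
    intro c s hs x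
    simp [F, hs]
    split_ifs <;> rfl
  have hF : P.Compat S.cyl L' F := by
    rintro ⟨a, s⟩ ⟨b, t⟩ hlt hb ⟨⟨x, τ⟩, hx, hτ⟩
    obtain ⟨hab, hst⟩ := hlt.le
    show S.tr hab (F (a, s) ⟨(x, τ), hx, hτ⟩) = F (b, t) ⟨(x, τ), C.mono hab hx, intervalCells.mono hst hτ⟩
    by_cases ht : t = edge
    · subst ht
      have hbL : b ∈ L := hb rfl
      have hmove : S.tr hab (h a (⟨x, hx⟩, τ)) = h b (⟨x, C.mono hab hx⟩, τ) := by
        rcases hab.eq_or_lt with e | e
        · subst e
          exact S.tr_refl _ _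
        · exact hh a b e hbL ⟨x, hx⟩ τ
      refine Eq.trans ?_ (hmove.trans (hFe b ⟨(x, τ), C.mono hab hx, intervalCells.mono hst hτ⟩).symm)
      refine congrArg (S.tr hab) ?_
      by_cases hs : s = edge
      · subst hs
        exact hFe a _
      · refine (hFs a s hs _).trans ?_
        rcases hsingle s hs τ hτ with ⟨rfl, e⟩ | ⟨rfl, e⟩
        · rw [if_pos e]
          exact (h0 a (hL hab hbL) _).symm
        · rw [if_neg (by rw [e]; decide)]
          exact (h1 a (hL hab hbL) _).symm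
    · have hs : s ≠ edge := fun e => ht (hedge t (e ▸ hst))
      have hst' : s.1 = t.1 := by
        rcases hsingle t ht τ (intervalCells.mono hst hτ) with ⟨-, e⟩ | ⟨-, e⟩ <;>
          exact ((Finset.subset_singleton_iff.1 (e ▸ hst)).resolve_left s.2.ne_empty).trans e.symm
      have hmove : ∀ w : ∀ c, C(C.cell c, S.V c), C.Compat S univ w →
          S.tr hab (w a ⟨x, hx⟩) = w b ⟨x, C.mono hab hx⟩ := by
        intro w hw
        rcases hab.eq_or_lt with e | e
        · subst e
          exact S.tr_refl _ _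
        · exact hw a b e (mem_univ _) ⟨x, hx⟩
      rw [hFs a s hs, hFs b t ht, hst']
      by_cases e : t.1 = {false}
      · simp only [if_pos e]
        exact hmove u hu
      · simp only [if_neg e]
        exact hmove u' hu'
  obtain ⟨G, hG, hGL⟩ := P.exists_extend S.cyl hL'
    (fun p hp => hS p.1 fun hp' => hp fun _ => hp') hF
  have hemb : ∀ (c : ι) (x : C.cell c) (t : I), (x.1, t) ∈ P.cell (c, edge) :=
    fun c x t => ⟨x.2, Or.inl rfl⟩
  refine ⟨fun c => (G (c, edge)).comp ⟨fun y => ⟨(y.1.1, y.2), hemb c y.1 y.2⟩, by fun_prop⟩,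
    fun a b hab _ x t => hG (a, edge) (b, edge) (Prod.lt_iff.2 (Or.inl ⟨hab, le_rfl⟩))
      (mem_univ _) ⟨(x.1, t), hemb a x t⟩, fun c x => ?_, fun c x => ?_, fun c hc => ?_⟩
  · let s : IntervalCell := ⟨{false}, Finset.singleton_nonempty _⟩
    have hs : s ≠ edge := fun e => by simpa [s, edge, Finset.ext_iff] using congrArg Subtype.val e
    have hlt : (c, s) < (c, edge) :=
      Prod.lt_iff.2 (Or.inr ⟨le_rfl, lt_of_le_of_ne (Finset.subset_univ _) hs⟩)
    refine (hG _ _ hlt (mem_univ _) ⟨(x.1, 0), x.2, Or.inr (Or.inl ⟨rfl, by simp [s]⟩)⟩).symm.trans ?_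
    rw [hGL (c, s) fun e => absurd e hs]
    refine (S.tr_refl _ _).trans ((hFs c s hs _).trans ?_)
    simp [s]
    rfl
  · let s : IntervalCell := ⟨{true}, Finset.singleton_nonempty _⟩
    have hs : s ≠ edge := fun e => by simpa [s, edge, Finset.ext_iff] using congrArg Subtype.val e
    have hlt : (c, s) < (c, edge) :=
      Prod.lt_iff.2 (Or.inr ⟨le_rfl, lt_of_le_of_ne (Finset.subset_univ _) hs⟩)
    refine (hG _ _ hlt (mem_univ _) ⟨(x.1, 1), x.2, Or.inr (Or.inr ⟨rfl, by simp [s]⟩)⟩).symm.trans ?_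
    rw [hGL (c, s) fun e => absurd e hs]
    refine (S.tr_refl _ _).trans ((hFs c s hs _).trans ?_)
    simp [s]
    rfl
  · refine ContinuousMap.ext fun y => ?_
    show G (c, edge) ⟨(y.1.1, y.2), hemb c y.1 y.2⟩ = h c y
    rw [hGL (c, edge) fun _ => hc]
    exact hFe c _

/-- Any two carried families are homotopic by a carried homotopy. -/
theorem exists_homotopy [Finite ι] (hS : ∀ c, WC (S.V c)) {u u' : ∀ c, C(C.cell c, S.V c)}
    (hu : C.Compat S univ u) (hu' : C.Compat S univ u') :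
    ∃ H : ∀ c, C(C.cell c × I, S.V c), C.CompatH S univ H ∧
      (∀ c x, H c (x, 0) = u c x) ∧ ∀ c x, H c (x, 1) = u' c x := by
  obtain ⟨H, h, h0, h1, -⟩ := C.exists_homotopy_extend S (L := ∅) (fun _ _ _ h => h.elim)
    (fun c _ => hS c) hu hu' (h := fun c => (u c).comp ⟨Prod.fst, continuous_fst⟩)
    (fun _ _ _ h => h.elim) (fun _ h => h.elim) fun _ h => h.elim
  exact ⟨H, h, h0, h1⟩

end Cells

end

end Vale.Agent.P259
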