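import Vale.Agent.P259.Top.Carrier
import Vale.Agent.P259.Complex.Simplex

/-!
# P259, Top: the faces of the simplex as carrier cells
-/

namespace Vale.Agent.P259

open Set
open P259.Complex
open scoped Topology unitInterval

noncomputable section

/-- The standard simplex and its boundary form a ball and its sphere. -/
theorem isBall_stdSimplex (m : ℕ) : IsBall (Simp.bdry m) := by
  classical
  let C : Set (Fin m → ℝ) := {y | (∀ i, 0 ≤ y i) ∧ ∑ i, y i ≤ 1}
  have hcl : IsClosed C := by
    have h : C = (⋂ i, {y : Fin m → ℝ | 0 ≤ y i}) ∩ {y | ∑ i, y i ≤ 1} := by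
      ext y
      simp [C]
    rw [h]
    exact (isClosed_iInter fun i => isClosed_le continuous_const (continuous_apply i)).inter
      (isClosed_le (by fun_prop) continuous_const)
  have hcomp : IsCompact C := (isCompact_univ_pi fun _ => isCompact_Icc (a := (0 : ℝ)) (b := 1)).of_isClosed_subset
    hcl fun y hy i _ => ⟨hy.1 i,
      (Finset.single_le_sum (fun j _ => hy.1 j) (Finset.mem_univ i)).trans hy.2⟩
  have hconv : Convex ℝ C := by
    intro y hy z hz a b ha hb hab
    refine ⟨fun i => ?_, ?_⟩
    · simp only [Pi.add_apply, Pi.smul_apply, smul_eq_mul]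
      exact add_nonneg (mul_nonneg ha (hy.1 i)) (mul_nonneg hb (hz.1 i))
    · simp only [Pi.add_apply, Pi.smul_apply, smul_eq_mul, Finset.sum_add_distrib, ← Finset.mul_sum]
      calc a * ∑ i, y i + b * ∑ i, z i ≤ a * 1 + b * 1 :=
            add_le_add (mul_le_mul_of_nonneg_left hy.2 ha) (mul_le_mul_of_nonneg_left hz.2 hb)
        _ = 1 := by linarith
  have hint : interior C = {y | (∀ i, 0 < y i) ∧ ∑ i, y i < 1} := by
    refine Subset.antisymm (fun y hy => ?_) ?_
    · have hyC := interior_subset hy
      have hnhds : ∀ i : Fin m, ∀ᶠ t in 𝓝 (y i), Function.update y i t ∈ C := fun i => by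
        have hc : Continuous fun t => Function.update y i t :=
          continuous_const.update i continuous_id
        have := hc.tendsto (y i)
        rw [Function.update_eq_self] at this
        exact this (mem_interior_iff_mem_nhds.1 hy)
      refine ⟨fun i => lt_of_le_of_ne (hyC.1 i) fun h => ?_, lt_of_le_of_ne hyC.2 fun h => ?_⟩
      · obtain ⟨t, ht, ht'⟩ := ((hnhds i).filter_mono nhdsWithin_le_nhds |>.and
          (self_mem_nhdsWithin : Iio (y i) ∈ 𝓝[<] (y i))).exists
        have := ht.1 i
        rw [Function.update_self] at this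
        linarith [ht']
      · obtain ⟨i⟩ : Nonempty (Fin m) := by
          by_contra hn
          rw [not_nonempty_iff] at hn
          simp at h
        obtain ⟨t, ht, ht'⟩ := ((hnhds i).filter_mono nhdsWithin_le_nhds |>.and
          (self_mem_nhdsWithin : Ioi (y i) ∈ 𝓝[>] (y i))).exists
        have := ht.2
        rw [Finset.sum_update_of_mem (Finset.mem_univ i)] at this
        have e := Finset.add_sum_erase Finset.univ y (Finset.mem_univ i)
        rw [← Finset.sdiff_singleton_eq_erase] at e
        linarith [ht']
    · refine interior_maximal (fun y hy => ⟨fun i => (hy.1 i).le, hy.2.le⟩) ?_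
      have h : {y : Fin m → ℝ | (∀ i, 0 < y i) ∧ ∑ i, y i < 1}
          = (⋂ i, {y : Fin m → ℝ | 0 < y i}) ∩ {y | ∑ i, y i < 1} := by
        ext y
        simp
      rw [h]
      exact (isOpen_iInter_of_finite fun i => isOpen_lt continuous_const (continuous_apply i)).inter
        (isOpen_lt (by fun_prop) continuous_const)
  have hne : (interior C).Nonempty := by
    rw [hint]
    refine ⟨fun _ => 1 / (m + 1 : ℝ), fun _ => by positivity, ?_⟩
    rw [Finset.sum_const, Finset.card_univ, Fintype.card_fin, nsmul_eq_mul, mul_one_div,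
      div_lt_one (by positivity)]
    linarith
  let φ : Simp.Δ m → C := fun x => ⟨fun i => x.1 i.succ, fun i => x.2.1 _, by
    have h := x.2.2
    rw [Fin.sum_univ_succ] at h
    linarith [x.2.1 0]⟩
  have hφ : Function.Bijective φ := by
    constructor
    · intro x y h
      have h' : ∀ i : Fin m, x.1 i.succ = y.1 i.succ := fun i => congrFun (congrArg Subtype.val h) i
      refine Subtype.ext (funext fun v => ?_)
      induction v using Fin.cases with
      | zero =>
        have hx := x.2.2
        have hy := y.2.2
        rw [Fin.sum_univ_succ] at hx hy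
        rw [Finset.sum_congr rfl fun i _ => h' i] at hx
        linarith
      | succ i => exact h' i
    · intro y
      refine ⟨⟨Fin.cases (1 - ∑ i, y.1 i) y.1, fun v => ?_, ?_⟩, rfl⟩
      · induction v using Fin.cases with
        | zero => exact sub_nonneg.2 y.2.2
        | succ i => exact y.2.1 i
      · simp [Fin.sum_univ_succ]
  have hcont : Continuous φ := Continuous.subtype_mk
    (continuous_pi fun i => (continuous_apply i.succ).comp continuous_subtype_val) _
  let e : C ≃ₜ Simp.Δ m := (hcont.homeoOfEquivCompactToT2 (f := Equiv.ofBijective φ hφ)).symm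
  refine (isBall_of_convex hcomp hconv hne).of_homeomorph e fun y => ?_
  have hy : φ (e y) = y := e.symm_apply_apply y
  show (∃ v, (e y).1 v = 0) ↔ y.1 ∈ frontier C
  rw [frontier, hcl.closure_eq, mem_sdiff, hint]
  simp only [mem_ofPred_eq, y.2, true_and, not_and_or, not_forall, not_lt]
  have hs : ∀ i : Fin m, (e y).1 i.succ = y.1 i := fun i => congrFun (congrArg Subtype.val hy) i
  have h0 : (e y).1 0 = 1 - ∑ i, y.1 i := by
    have h := (e y).2.2
    rw [Fin.sum_univ_succ, Finset.sum_congr rfl fun i _ => hs i] at h
    linarith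
  constructor
  · rintro ⟨v, hv⟩
    induction v using Fin.cases with
    | zero => exact Or.inr (by linarith)
    | succ i => exact Or.inl ⟨i, by linarith [hs i]⟩
  · rintro (⟨i, hi⟩ | h)
    · exact ⟨i.succ, by linarith [hs i, y.2.1 i]⟩
    · exact ⟨0, by linarith [y.2.2]⟩

/-- A face of the simplex with the union of its proper faces. -/
theorem isBall_splxFace {k : ℕ} (s : Finset (Fin (k + 1))) (hs : s.Nonempty) :
    IsBall {x : splxFace k s | x.1.w.support ≠ s} := by
  classical
  obtain ⟨m, hm⟩ : ∃ m, s.card = m + 1 := ⟨s.card - 1, by have := hs.card_pos; omega⟩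
  let e : Fin (m + 1) ≃ s := (Finset.equivFinOfCardEq hm).symm
  let φ : splxFace k s → Simp.Δ m := fun x => ⟨fun i => x.1.w (e i).1, fun i => x.1.nonneg _, by
    rw [e.sum_comp (fun v : s => x.1.w v.1), Finset.sum_coe_sort s fun v => x.1.w v]
    exact x.1.sum_eq_one x.2⟩
  have hsimp : s ∈ (Cx.chains (Fin (k + 1))).simp :=
    Cx.mem_chains.2 fun a _ b _ _ => le_total a b
  have hφ : Function.Bijective φ := by
    constructor
    · intro x y h
      refine Subtype.ext (P259.Complex.Real.ext (Finsupp.ext fun v => ?_))
      by_cases hv : v ∈ s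
      · have := congrFun (congrArg Subtype.val h) (e.symm ⟨v, hv⟩)
        simpa [φ] using this
      · rw [Finsupp.notMem_support_iff.1 fun h => hv (x.2 h),
          Finsupp.notMem_support_iff.1 fun h => hv (y.2 h)]
    · intro f
      let g : stdSimplex ℝ s := ⟨fun v => f.1 (e.symm v), fun v => f.2.1 _, by
        rw [e.symm.sum_comp f.1]
        exact f.2.2⟩
      refine ⟨⟨P259.Complex.Real.ofSimplex ⟨s, hsimp⟩ g, P259.Complex.Real.simplexWeight_support s g⟩, ?_⟩
      refine Subtype.ext (funext fun i => ?_)
      show P259.Complex.Real.simplexWeight s g (e i).1 = f.1 i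
      rw [P259.Complex.Real.simplexWeight_apply, dif_pos (e i).2]
      exact congrArg f.1 (e.symm_apply_apply i)
  have hcont : Continuous φ := Continuous.subtype_mk
    (continuous_pi fun i => (P259.Complex.Real.continuous_coord _).comp continuous_subtype_val) _
  have : CompactSpace (splxFace k s) :=
    isCompact_iff_compactSpace.1 (P259.Complex.Real.isCompact_within s)
  let h : splxFace k s ≃ₜ Simp.Δ m :=
    hcont.homeoOfEquivCompactToT2 (f := Equiv.ofBijective φ hφ)
  refine (isBall_stdSimplex m).of_homeomorph h.symm fun f => ?_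
  obtain ⟨x, rfl⟩ := h.surjective f
  rw [h.symm_apply_apply]
  show x.1.w.support ≠ s ↔ ∃ i, x.1.w (e i).1 = 0
  constructor
  · intro hne
    by_contra hc
    rw [not_exists] at hc
    refine hne (Finset.Subset.antisymm x.2 fun v hv => ?_)
    simpa using hc (e.symm ⟨v, hv⟩)
  · rintro ⟨i, hi⟩ hne
    exact Finsupp.mem_support_iff.1 (hne.symm ▸ (e i).2 : (e i).1 ∈ x.1.w.support) hi

/-- The faces of the simplex. -/
def splxCells (k : ℕ) : Cells (Splx k) {s : Finset (Fin (k + 1)) // s.Nonempty} where
  cell s := splxFace k s.1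
  closed s := (P259.Complex.Real.isCompact_within (K := Cx.chains (Fin (k + 1))) s.1).isClosed
  mono h _ hx := Subset.trans hx h
  meet {_ _ x} ha hb :=
    ⟨⟨x.w.support, x.support_nonempty⟩, ha, hb, Finset.Subset.refl _⟩
  ball s := by
    convert isBall_splxFace s.1 s.2 using 1
    ext x
    show (∃ t, t < s ∧ x.1.w.support ⊆ t.1) ↔ x.1.w.support ≠ s.1
    constructor
    · rintro ⟨t, hts, hx⟩ he
      exact hts.ne (Subtype.ext (Finset.Subset.antisymm hts.le (he ▸ hx)))
    · intro hne
      exact ⟨⟨x.1.w.support, x.1.support_nonempty⟩,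
        lt_of_le_of_ne x.2 fun e => hne (congrArg Subtype.val e), Finset.Subset.refl _⟩

/-- The boundary of the simplex. -/
theorem isBall_splx (k : ℕ) : IsBall {x : Splx k | ∃ v, x.w v = 0} := by
  have hu : splxFace k Finset.univ = univ := eq_univ_of_forall fun x => Finset.subset_univ _
  refine (isBall_splxFace Finset.univ Finset.univ_nonempty).of_homeomorph
    ((Homeomorph.setCongr hu).trans (Homeomorph.Set.univ _)) fun x => ?_
  show (∃ v, x.1.w v = 0) ↔ x.1.w.support ≠ Finset.univ
  simp [Finset.eq_univ_iff_forall]

end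

end Vale.Agent.P259
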