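import Mathlib

/-!
# P259, Top: closed discs and their two boundary hemispheres

The closed disc of each dimension, its boundary sphere, the two hemisphere inclusions
and the radial quotient map from the cylinder onto the disc of the next dimension.
-/

open Metric Set

noncomputable section

namespace P259.Top

/-- The closed unit disc of dimension n. -/
abbrev Disc (n : ℕ) : Type := closedBall (0 : EuclideanSpace ℝ (Fin n)) 1

/-- The boundary sphere of the disc (empty for dimension 0). -/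
def rim (n : ℕ) : Set (Disc n) := {v | ‖(v : EuclideanSpace ℝ (Fin n))‖ = 1}

theorem norm_le (n : ℕ) (v : Disc n) : ‖(v : EuclideanSpace ℝ (Fin n))‖ ≤ 1 := by
  simp only [← dist_zero_right]
  exact v.2

theorem norm_sq_snoc (n : ℕ) (v : EuclideanSpace ℝ (Fin n)) (r : ℝ) :
    ‖(WithLp.toLp 2 (Fin.snoc (α := fun _ => ℝ) v.ofLp r) : EuclideanSpace ℝ (Fin (n + 1)))‖ ^ 2
      = ‖v‖ ^ 2 + r ^ 2 := by
  simp [EuclideanSpace.norm_sq_eq, Fin.sum_univ_castSucc]

/-- The height of the disc of the next dimension over a point. -/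
def height {n : ℕ} (v : Disc n) : ℝ := Real.sqrt (1 - ‖(v : EuclideanSpace ℝ (Fin n))‖ ^ 2)

theorem height_nonneg {n : ℕ} (v : Disc n) : 0 ≤ height v := Real.sqrt_nonneg _

theorem height_sq {n : ℕ} (v : Disc n) :
    height v ^ 2 = 1 - ‖(v : EuclideanSpace ℝ (Fin n))‖ ^ 2 := by
  have h := norm_le n v
  have h0 := norm_nonneg (v : EuclideanSpace ℝ (Fin n))
  exact Real.sq_sqrt (by nlinarith)

theorem height_eq_zero_iff {n : ℕ} (v : Disc n) : height v = 0 ↔ v ∈ rim n := by
  have h := height_sq v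
  have h0 := norm_nonneg (v : EuclideanSpace ℝ (Fin n))
  constructor
  · intro hz
    rw [hz] at h
    show ‖(v : EuclideanSpace ℝ (Fin n))‖ = 1
    nlinarith [norm_le n v]
  · intro hv
    have hv' : ‖(v : EuclideanSpace ℝ (Fin n))‖ = 1 := hv
    simpa [hv'] using h

theorem continuous_height (n : ℕ) : Continuous (height (n := n)) :=
  Real.continuous_sqrt.comp (by fun_prop)

/-- The point over a point of the disc at relative height s. -/
def slice {n : ℕ} (s : Icc (-1 : ℝ) 1) (v : Disc n) : Disc (n + 1) :=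
  ⟨WithLp.toLp 2 (Fin.snoc (α := fun _ => ℝ) (v : EuclideanSpace ℝ (Fin n)).ofLp
      ((s : ℝ) * height v)), by
    rw [mem_closedBall, dist_zero_right]
    have h1 := norm_sq_snoc n (v : EuclideanSpace ℝ (Fin n)) ((s : ℝ) * height v)
    have h2 : (s : ℝ) ^ 2 ≤ 1 := by nlinarith [s.2.1, s.2.2]
    have h3 := height_sq v
    have h4 := mul_le_mul_of_nonneg_right h2 (sq_nonneg (height v))
    nlinarith [norm_nonneg (WithLp.toLp 2 (Fin.snoc (α := fun _ => ℝ)
      (v : EuclideanSpace ℝ (Fin n)).ofLp ((s : ℝ) * height v)) : EuclideanSpace ℝ (Fin (n + 1)))]⟩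

theorem continuous_slice (n : ℕ) :
    Continuous fun p : Icc (-1 : ℝ) 1 × Disc n => slice p.1 p.2 := by
  refine Continuous.subtype_mk ((PiLp.continuous_toLp 2 _).comp ?_) _
  refine continuous_pi fun i => ?_
  refine Fin.lastCases ?_ (fun i => ?_) i
  · simp only [Fin.snoc_last]
    exact (continuous_subtype_val.comp continuous_fst).mul
      ((continuous_height n).comp continuous_snd)
  · simp only [Fin.snoc_castSucc]
    fun_prop

/-- The upper hemisphere of the next disc. -/
def upper (n : ℕ) : C(Disc n, Disc (n + 1)) :=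
  ⟨fun v => slice ⟨1, by norm_num⟩ v,
    Continuous.comp (continuous_slice n) (f := fun v => ((⟨1, by norm_num⟩ : Icc (-1 : ℝ) 1), v))
      (continuous_const.prodMk continuous_id)⟩

/-- The lower hemisphere of the next disc. -/
def lower (n : ℕ) : C(Disc n, Disc (n + 1)) :=
  ⟨fun v => slice ⟨-1, by norm_num⟩ v,
    Continuous.comp (continuous_slice n) (f := fun v => ((⟨-1, by norm_num⟩ : Icc (-1 : ℝ) 1), v))
      (continuous_const.prodMk continuous_id)⟩

theorem upper_coe {n : ℕ} (v : Disc n) : (upper n v : EuclideanSpace ℝ (Fin (n + 1))).ofLp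
    = Fin.snoc (α := fun _ => ℝ) (v : EuclideanSpace ℝ (Fin n)).ofLp (height v) := by
  simp [upper, slice]

theorem lower_coe {n : ℕ} (v : Disc n) : (lower n v : EuclideanSpace ℝ (Fin (n + 1))).ofLp
    = Fin.snoc (α := fun _ => ℝ) (v : EuclideanSpace ℝ (Fin n)).ofLp (-height v) := by
  simp [lower, slice]

theorem slice_rim {n : ℕ} {v : Disc n} (hv : v ∈ rim n) (s t : Icc (-1 : ℝ) 1) :
    slice s v = slice t v := by
  apply Subtype.ext
  simp [slice, (height_eq_zero_iff v).2 hv]

theorem upper_eq_lower {n : ℕ} {v : Disc n} (hv : v ∈ rim n) : upper n v = lower n v :=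
  slice_rim hv _ _

theorem norm_slice_sq {n : ℕ} (s : Icc (-1 : ℝ) 1) (v : Disc n) :
    ‖(slice s v : EuclideanSpace ℝ (Fin (n + 1)))‖ ^ 2
      = ‖(v : EuclideanSpace ℝ (Fin n))‖ ^ 2 + ((s : ℝ) * height v) ^ 2 :=
  norm_sq_snoc n (v : EuclideanSpace ℝ (Fin n)) ((s : ℝ) * height v)

theorem upper_mem_rim {n : ℕ} (v : Disc n) : upper n v ∈ rim (n + 1) := by
  show ‖(slice ⟨1, by norm_num⟩ v : EuclideanSpace ℝ (Fin (n + 1)))‖ = 1
  have h := norm_slice_sq ⟨1, by norm_num⟩ v
  rw [one_mul, height_sq] at h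
  nlinarith [norm_nonneg (slice ⟨1, by norm_num⟩ v : EuclideanSpace ℝ (Fin (n + 1)))]

theorem lower_mem_rim {n : ℕ} (v : Disc n) : lower n v ∈ rim (n + 1) := by
  show ‖(slice ⟨-1, by norm_num⟩ v : EuclideanSpace ℝ (Fin (n + 1)))‖ = 1
  have h := norm_slice_sq ⟨-1, by norm_num⟩ v
  rw [neg_one_mul, neg_sq, height_sq] at h
  nlinarith [norm_nonneg (slice ⟨-1, by norm_num⟩ v : EuclideanSpace ℝ (Fin (n + 1)))]

/-- The first coordinates of a point of the next disc. -/
def shadow {n : ℕ} (w : Disc (n + 1)) : Disc n :=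
  ⟨WithLp.toLp 2 (Fin.init (w : EuclideanSpace ℝ (Fin (n + 1))).ofLp), by
    rw [mem_closedBall, dist_zero_right]
    have h : ‖(w : EuclideanSpace ℝ (Fin (n + 1)))‖ ^ 2 ≤ 1 := by
      nlinarith [norm_le _ w, norm_nonneg (w : EuclideanSpace ℝ (Fin (n + 1)))]
    simp only [EuclideanSpace.norm_sq_eq, Fin.sum_univ_castSucc] at h
    have h' : ‖(WithLp.toLp 2 (Fin.init (w : EuclideanSpace ℝ (Fin (n + 1))).ofLp) :
        EuclideanSpace ℝ (Fin n))‖ ^ 2 ≤ 1 := by
      simp only [EuclideanSpace.norm_sq_eq, Fin.init]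
      nlinarith [sq_nonneg ‖(w : EuclideanSpace ℝ (Fin (n + 1))).ofLp (Fin.last n)‖]
    nlinarith [norm_nonneg (WithLp.toLp 2 (Fin.init (w : EuclideanSpace ℝ (Fin (n + 1))).ofLp) :
        EuclideanSpace ℝ (Fin n))]⟩

theorem shadow_slice {n : ℕ} (s : Icc (-1 : ℝ) 1) (v : Disc n) : shadow (slice s v) = v := by
  apply Subtype.ext
  simp [shadow, slice]

theorem eq_of_slice_eq {n : ℕ} {s t : Icc (-1 : ℝ) 1} {v w : Disc n}
    (h : slice s v = slice t w) : v = w ∧ (s = t ∨ v ∈ rim n) := by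
  have hv : v = w := by rw [← shadow_slice s v, h, shadow_slice]
  subst hv
  refine ⟨rfl, ?_⟩
  have hl := congrArg (fun z : Disc (n + 1) =>
    (z : EuclideanSpace ℝ (Fin (n + 1))).ofLp (Fin.last n)) h
  simp only [slice, Fin.snoc_last] at hl
  by_cases hz : height v = 0
  · exact Or.inr ((height_eq_zero_iff v).1 hz)
  · exact Or.inl (Subtype.ext (mul_right_cancel₀ hz hl))

theorem exists_slice_eq {n : ℕ} (w : Disc (n + 1)) : ∃ s, slice s (shadow w) = w := by
  set r : ℝ := (w : EuclideanSpace ℝ (Fin (n + 1))).ofLp (Fin.last n)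
  have hs : (w : EuclideanSpace ℝ (Fin (n + 1))) = WithLp.toLp 2
      (Fin.snoc (α := fun _ => ℝ) (shadow w : EuclideanSpace ℝ (Fin n)).ofLp r) := by
    simp [shadow, r, Fin.snoc_init_self]
  have h : r ^ 2 ≤ height (shadow w) ^ 2 := by
    rw [height_sq]
    have h1 := congrArg (fun z : EuclideanSpace ℝ (Fin (n + 1)) => ‖z‖ ^ 2) hs
    simp only [norm_sq_snoc] at h1
    nlinarith [norm_le _ w, norm_nonneg (w : EuclideanSpace ℝ (Fin (n + 1)))]
  have habs : |r| ≤ height (shadow w) := by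
    have := abs_le_of_sq_le_sq h (height_nonneg _)
    exact this
  by_cases hz : height (shadow w) = 0
  · refine ⟨⟨0, by norm_num⟩, Subtype.ext ?_⟩
    have hr : r = 0 := by
      rw [hz] at habs
      exact abs_nonpos_iff.1 habs
    rw [hs]
    simp [slice, hr]
  · have hp : 0 < height (shadow w) := lt_of_le_of_ne (height_nonneg _) (Ne.symm hz)
    refine ⟨⟨r / height (shadow w), ?_⟩, Subtype.ext ?_⟩
    · rw [mem_Icc, le_div_iff₀ hp, div_le_iff₀ hp]
      constructor <;> nlinarith [abs_le.1 habs]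
    · rw [hs]
      simp [slice, div_mul_cancel₀ r hz]

end P259.Top
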