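import Vale.Agent.P259.Top.Disc

/-!
# P259, Top: fillers between maps of discs, and the homotopy groups

Two maps of the closed disc which agree on the sphere extend over the disc of the next
dimension through the two hemispheres iff they are homotopic relative to the sphere. Together
with a homeomorphism of pairs between cube and disc this identifies disc maps modulo fillers
with the homotopy groups of Mathlib.
-/

open Metric Set unitInterval

universe u

noncomputable section

namespace P259.Top

variable {n : ℕ} {X Y Z : Type u} [TopologicalSpace X] [TopologicalSpace Y] [TopologicalSpace Z]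

instance : CompactSpace (Disc n) := isCompact_iff_compactSpace.1 (isCompact_closedBall _ _)

/-- The parameter of the radial quotient map. -/
def param (t : I) : Icc (-1 : ℝ) 1 := ⟨1 - 2 * t, by linarith [t.2.2], by linarith [t.2.1]⟩

theorem param_zero : param 0 = ⟨1, by norm_num⟩ := by simp [param]

theorem param_one : param 1 = ⟨-1, by norm_num⟩ := by norm_num [param]

theorem param_injective : Function.Injective param := fun s t h => by
  have h' : (1 : ℝ) - 2 * s = 1 - 2 * t := congrArg Subtype.val h
  exact Subtype.ext (by linarith)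

theorem param_surjective : Function.Surjective param := fun s =>
  ⟨⟨(1 - (s : ℝ)) / 2, by linarith [s.2.2], by linarith [s.2.1]⟩,
    Subtype.ext (show 1 - 2 * ((1 - (s : ℝ)) / 2) = (s : ℝ) by ring)⟩

theorem continuous_param : Continuous param := by
  unfold param
  fun_prop

/-- The quotient map from the cylinder onto the next disc. -/
def cyl (n : ℕ) : C(I × Disc n, Disc (n + 1)) :=
  ⟨fun p => slice (param p.1) p.2, Continuous.comp (continuous_slice n)
    (f := fun p : I × Disc n => (param p.1, p.2))
    ((continuous_param.comp continuous_fst).prodMk continuous_snd)⟩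

theorem cyl_zero (v : Disc n) : cyl n (0, v) = upper n v := by
  simp [cyl, upper, param_zero]

theorem cyl_one (v : Disc n) : cyl n (1, v) = lower n v := by
  simp [cyl, lower, param_one]

theorem cyl_isQuotientMap (n : ℕ) : Topology.IsQuotientMap (cyl n) := by
  refine (cyl n).continuous.isClosedMap.isQuotientMap (cyl n).continuous fun w => ?_
  obtain ⟨s, hs⟩ := exists_slice_eq w
  obtain ⟨t, rfl⟩ := param_surjective s
  exact ⟨(t, shadow w), hs⟩

theorem cyl_factors {p q : I × Disc n} (h : cyl n p = cyl n q) :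
    p = q ∨ (p.2 = q.2 ∧ p.2 ∈ rim n) := by
  obtain ⟨hv, hs⟩ := eq_of_slice_eq h
  rcases hs with hs | hs
  · exact Or.inl (Prod.ext (param_injective hs) hv)
  · exact Or.inr ⟨hv, hs⟩

/-- A filler between two maps of a disc: a map of the next disc with the two given hemispheres. -/
def Filler (f g : C(Disc n, Y)) : Prop :=
  ∃ h : C(Disc (n + 1), Y), h.comp (upper n) = f ∧ h.comp (lower n) = g

/-- Fillers are the same as homotopies relative to the sphere. -/
theorem filler_iff_homotopicRel {f g : C(Disc n, Y)} :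
    Filler f g ↔ f.HomotopicRel g (rim n) := by
  constructor
  · rintro ⟨h, rfl, rfl⟩
    refine ⟨⟨⟨h.comp (cyl n), fun v => ?_, fun v => ?_⟩, fun t v hv => ?_⟩⟩
    · simp [cyl_zero]
    · simp [cyl_one]
    · show h (cyl n (t, v)) = h (upper n v)
      exact congrArg h (slice_rim hv _ _)
  · rintro ⟨H⟩
    have hfac : Function.FactorsThrough H.toContinuousMap (cyl n) := by
      intro p q hpq
      rcases cyl_factors hpq with rfl | ⟨hv, hr⟩
      · rfl
      · show H (p.1, p.2) = H (q.1, q.2)
        rw [← hv, H.eq_fst p.1 hr, H.eq_fst q.1 hr]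
    let h := (cyl_isQuotientMap n).lift H.toContinuousMap hfac
    have hc : ∀ p, h (cyl n p) = H p := fun p =>
      congrFun (congrArg (fun k : C(I × Disc n, Y) => (k : I × Disc n → Y))
        ((cyl_isQuotientMap n).lift_comp H.toContinuousMap hfac)) p
    refine ⟨h, ?_, ?_⟩ <;> ext v
    · rw [ContinuousMap.comp_apply, ← cyl_zero, hc, H.apply_zero]
    · rw [ContinuousMap.comp_apply, ← cyl_one, hc, H.apply_one]

theorem Filler.refl (f : C(Disc n, Y)) : Filler f f :=
  filler_iff_homotopicRel.2 (ContinuousMap.HomotopicRel.refl f)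

theorem Filler.symm {f g : C(Disc n, Y)} (h : Filler f g) : Filler g f :=
  filler_iff_homotopicRel.2 (ContinuousMap.HomotopicRel.symm (filler_iff_homotopicRel.1 h))

theorem Filler.trans {f g k : C(Disc n, Y)} (h : Filler f g) (h' : Filler g k) : Filler f k :=
  filler_iff_homotopicRel.2
    (ContinuousMap.HomotopicRel.trans (filler_iff_homotopicRel.1 h) (filler_iff_homotopicRel.1 h'))

theorem Filler.map {f g : C(Disc n, Y)} (h : Filler f g) (k : C(Y, Z)) :
    Filler (k.comp f) (k.comp g) := by
  obtain ⟨h, rfl, rfl⟩ := h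
  exact ⟨k.comp h, rfl, rfl⟩

/-- The cube as a subset of Euclidean space. -/
def cubeSet (n : ℕ) : Set (EuclideanSpace ℝ (Fin n)) :=
  (PiLp.homeomorph 2 fun _ : Fin n => ℝ) ⁻¹' (univ.pi fun _ => Icc (0 : ℝ) 1)

theorem exists_cubeDisc (n : ℕ) :
    ∃ e : (Fin n → I) ≃ₜ Disc n, ∀ y, y ∈ Cube.boundary (Fin n) ↔ e y ∈ rim n := by
  set P := PiLp.homeomorph 2 fun _ : Fin n => ℝ
  have hcl : IsClosed (cubeSet n) :=
    (isClosed_set_pi fun _ _ => isClosed_Icc).preimage P.continuous
  have hint : interior (cubeSet n) = P ⁻¹' (univ.pi fun _ => Ioo (0 : ℝ) 1) := by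
    rw [cubeSet, ← P.preimage_interior, interior_pi_set finite_univ]
    simp
  have hconv : Convex ℝ (cubeSet n) := by
    have := (convex_pi (s := (univ : Set (Fin n))) fun i _ =>
      convex_Icc (0 : ℝ) 1).linear_preimage
      (WithLp.linearEquiv 2 ℝ (Fin n → ℝ)).toLinearMap
    exact this
  have hne : (interior (cubeSet n)).Nonempty := by
    refine ⟨P.symm fun _ => (1 : ℝ) / 2, ?_⟩
    rw [hint]
    simp only [mem_preimage, P.apply_symm_apply, mem_univ_pi]
    exact fun _ => by norm_num
  have hbdd : Bornology.IsBounded (cubeSet n) :=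
    (P.isCompact_preimage.2 (isCompact_univ_pi fun _ => isCompact_Icc)).isBounded
  obtain ⟨h, -, hclo, hfr⟩ :=
    exists_homeomorph_image_interior_closure_frontier_eq_unitBall hconv hne hbdd
  rw [hcl.closure_eq] at hclo
  let g : (Fin n → I) → EuclideanSpace ℝ (Fin n) := fun y => P.symm fun i => (y i : ℝ)
  have hg : ∀ y, g y ∈ cubeSet n := fun y => by
    simp only [cubeSet, g, mem_preimage, mem_univ_pi]
    exact fun i => by simp [P]
  let F : (Fin n → I) → Disc n := fun y => ⟨h (g y), hclo ▸ ⟨g y, hg y, rfl⟩⟩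
  have hFb : Function.Bijective F := by
    constructor
    · intro y z hyz
      have h2 := P.symm.injective (h.injective (congrArg Subtype.val hyz))
      exact funext fun i => Subtype.ext (congrFun h2 i)
    · intro v
      have hv : (v : EuclideanSpace ℝ (Fin n)) ∈ h '' cubeSet n := by
        rw [hclo]; exact v.2
      obtain ⟨w, hw, hwv⟩ := hv
      simp only [cubeSet, mem_preimage, mem_univ_pi] at hw
      refine ⟨fun i => ⟨P w i, hw i⟩, Subtype.ext ?_⟩
      show h (P.symm (P w)) = v
      rw [P.symm_apply_apply, hwv]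
  have hFc : Continuous F :=
    (h.continuous.comp (P.symm.continuous.comp (by fun_prop))).subtype_mk _
  refine ⟨hFc.homeoOfEquivCompactToT2 (f := Equiv.ofBijective F hFb), fun y => ?_⟩
  show _ ↔ F y ∈ rim n
  have hsph : F y ∈ rim n ↔ g y ∈ frontier (cubeSet n) := by
    rw [← h.injective.mem_set_image (s := frontier (cubeSet n)), hfr, mem_sphere_zero_iff_norm]
    exact Iff.rfl
  rw [hsph, frontier, hcl.closure_eq, mem_sdiff, hint]
  simp only [hg y, true_and, g, mem_preimage, P.apply_symm_apply, mem_univ_pi, not_forall]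
  constructor
  · rintro ⟨i, hi | hi⟩ <;> exact ⟨i, by simp [hi]⟩
  · rintro ⟨i, hi⟩
    refine ⟨i, ?_⟩
    by_contra hcon
    push Not at hcon
    exact hi ⟨lt_of_le_of_ne (y i).2.1 fun h0 => hcon.1 (Subtype.ext h0.symm),
      lt_of_le_of_ne (y i).2.2 fun h1 => hcon.2 (Subtype.ext h1)⟩

/-- A homeomorphism of pairs from the cube to the disc. -/
def cubeDisc (n : ℕ) : (Fin n → I) ≃ₜ Disc n := (exists_cubeDisc n).choose

theorem cubeDisc_mem_rim (y : Fin n → I) : cubeDisc n y ∈ rim n ↔ y ∈ Cube.boundary (Fin n) :=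
  ((exists_cubeDisc n).choose_spec y).symm

/-- Maps of the disc sending the sphere to the base point. -/
def DiscLoop (n : ℕ) (Y : Type u) [TopologicalSpace Y] (x : Y) : Type u :=
  {f : C(Disc n, Y) // ∀ v ∈ rim n, f v = x}

instance discLoopSetoid (n : ℕ) (Y : Type u) [TopologicalSpace Y] (x : Y) :
    Setoid (DiscLoop n Y x) where
  r f g := Filler f.1 g.1
  iseqv := ⟨fun f => Filler.refl f.1, Filler.symm, Filler.trans⟩

/-- Disc maps with constant sphere, modulo fillers. -/
def DiscPi (n : ℕ) (Y : Type u) [TopologicalSpace Y] (x : Y) : Type u :=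
  Quotient (discLoopSetoid n Y x)

/-- A disc loop as a generalised loop of Mathlib. -/
def loopEquiv (n : ℕ) (Y : Type u) [TopologicalSpace Y] (x : Y) :
    DiscLoop n Y x ≃ GenLoop (Fin n) Y x where
  toFun f := ⟨f.1.comp (cubeDisc n : C((Fin n → I), Disc n)),
    fun y hy => f.2 _ ((cubeDisc_mem_rim y).2 hy)⟩
  invFun p := ⟨p.1.comp ((cubeDisc n).symm : C(Disc n, (Fin n → I))), fun v hv =>
    p.2 _ ((cubeDisc_mem_rim _).1 (by simpa using hv))⟩
  left_inv f := by
    refine Subtype.ext (ContinuousMap.ext fun v => ?_)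
    simp
  right_inv p := by
    refine GenLoop.ext _ _ fun y => ?_
    show p.1 ((cubeDisc n).symm (cubeDisc n y)) = p y
    simp

theorem homotopic_loopEquiv_iff {x : Y} (f g : DiscLoop n Y x) :
    GenLoop.Homotopic (loopEquiv n Y x f) (loopEquiv n Y x g) ↔ Filler f.1 g.1 := by
  rw [filler_iff_homotopicRel]
  constructor
  · rintro ⟨H⟩
    refine ⟨⟨⟨⟨fun p => H (p.1, (cubeDisc n).symm p.2), by fun_prop⟩, fun v => ?_, fun v => ?_⟩,
      fun t v hv => ?_⟩⟩
    · exact (H.apply_zero _).trans
        (congrArg f.1 ((cubeDisc n).apply_symm_apply v))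
    · exact (H.apply_one _).trans
        (congrArg g.1 ((cubeDisc n).apply_symm_apply v))
    · exact (H.eq_fst t ((cubeDisc_mem_rim _).1 (by rwa [Homeomorph.apply_symm_apply]))).trans
        (congrArg f.1 ((cubeDisc n).apply_symm_apply v))
  · rintro ⟨H⟩
    exact ⟨⟨⟨⟨fun p => H (p.1, cubeDisc n p.2), by fun_prop⟩, fun y => H.apply_zero _,
      fun y => H.apply_one _⟩, fun t y hy => H.eq_fst t ((cubeDisc_mem_rim y).2 hy)⟩⟩

/-- Disc maps modulo fillers are the homotopy groups. -/
def piEquiv (n : ℕ) (Y : Type u) [TopologicalSpace Y] (x : Y) :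
    DiscPi n Y x ≃ HomotopyGroup.Pi n Y x :=
  Quotient.congr (loopEquiv n Y x) fun f g => (homotopic_loopEquiv_iff f g).symm

/-- Composition of a disc loop with a map. -/
def DiscLoop.map (k : C(Y, Z)) {x : Y} (f : DiscLoop n Y x) : DiscLoop n Z (k x) :=
  ⟨k.comp f.1, fun v hv => congrArg k (f.2 v hv)⟩

/-- The action of a map on disc classes. -/
def discPiMap (k : C(Y, Z)) (x : Y) : DiscPi n Y x → DiscPi n Z (k x) :=
  Quotient.map (DiscLoop.map k) fun _ _ h => Filler.map h k

/-- Composition of a generalised loop with a map. -/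
def genLoopMap (k : C(Y, Z)) {N : Type*} {x : Y} (p : GenLoop N Y x) : GenLoop N Z (k x) :=
  ⟨k.comp p.1, fun y hy => congrArg k (p.2 y hy)⟩

/-- The map induced on homotopy groups. -/
def piMap (k : C(Y, Z)) (N : Type*) (x : Y) :
    HomotopyGroup N Y x → HomotopyGroup N Z (k x) :=
  Quotient.map (genLoopMap k) fun _ _ h => ContinuousMap.HomotopicRel.comp_continuousMap h k

theorem piEquiv_map (k : C(Y, Z)) (x : Y) (a : DiscPi n Y x) :
    piEquiv n Z (k x) (discPiMap k x a) = piMap k (Fin n) x (piEquiv n Y x a) := by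
  induction a using Quotient.inductionOn
  rfl

theorem discPiMap_bijective_iff (k : C(Y, Z)) (x : Y) :
    Function.Bijective (discPiMap (n := n) k x) ↔ Function.Bijective (piMap k (Fin n) x) := by
  have h : discPiMap (n := n) k x
      = (piEquiv n Z (k x)).symm ∘ piMap k (Fin n) x ∘ piEquiv n Y x :=
    funext fun a => by simp [← piEquiv_map]
  simp [h]

theorem discPiMap_injective_iff (k : C(Y, Z)) (x : Y) :
    Function.Injective (discPiMap (n := n) k x) ↔
      ∀ a b : DiscLoop n Y x, Filler (k.comp a.1) (k.comp b.1) → Filler a.1 b.1 := by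
  constructor
  · intro h a b hab
    exact Quotient.exact (h (a₁ := ⟦a⟧) (a₂ := ⟦b⟧) (Quotient.sound hab))
  · intro h a b
    induction a using Quotient.inductionOn
    induction b using Quotient.inductionOn
    exact fun hab => Quotient.sound (h _ _ (Quotient.exact hab))

theorem discPiMap_surjective_iff (k : C(Y, Z)) (x : Y) :
    Function.Surjective (discPiMap (n := n) k x) ↔
      ∀ c : DiscLoop n Z (k x), ∃ a : DiscLoop n Y x, Filler (k.comp a.1) c.1 := by
  constructor
  · intro h c
    obtain ⟨a, ha⟩ := h ⟦c⟧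
    induction a using Quotient.inductionOn with
    | _ a => exact ⟨a, Quotient.exact ha⟩
  · intro h c
    induction c using Quotient.inductionOn with
    | _ c =>
      obtain ⟨a, ha⟩ := h c
      exact ⟨⟦a⟧, Quotient.sound ha⟩

end P259.Top
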