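import Vale.Agent.P259.Top.PairBall

/-!
# P259, Top: maps of a sphere times a ball into weakly contractible spaces
-/

namespace Vale.Agent.P259

open Set
open scoped Topology unitInterval

noncomputable section

/-- A map given on the boundary of a sphere times a ball extends. -/
theorem fills_rim_prod {Q : Type} [TopologicalSpace Q] {B' : Set Q} (hQ : IsBall B') :
    ∀ n, Fills {p : rim n × Q | p.2 ∈ B'}
  | 0, Z, _, _, _ => by
    have : IsEmpty (rim 0) := ⟨fun v => by simpa [Ball.rim_zero] using v.2⟩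
    exact ⟨⟨fun p => isEmptyElim p.1, continuous_iff_continuousAt.2 fun p => isEmptyElim p.1⟩,
      fun b => isEmptyElim b.1.1⟩
  | n + 1, Z, _, hZ, f => by
    have := hQ.compactSpace
    have := hQ.t2Space
    obtain ⟨F₀, hF₀⟩ := fills_rim_prod hQ n Z hZ
      (f.comp ⟨fun p => ⟨(⟨hemi false n p.1.1.1, Ball.hemi_mem_rim _ _⟩, p.1.2), p.2⟩, by fun_prop⟩)
    let A : Bool → Set {p : Ball n × Q | p.1 ∈ rim n ∨ p.2 ∈ B'} := fun i =>
      if i then {p | p.1.1 ∈ rim n} else {p | p.1.2 ∈ B'}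
    have hA : ∀ i, IsClosed (A i) := by
      intro i
      cases i
      · exact hQ.isClosed_bdry.preimage (continuous_snd.comp continuous_subtype_val)
      · exact (isClosed_rim n).preimage (continuous_fst.comp continuous_subtype_val)
    have hbd : ∀ e : Bool, ∃ G : C(Ball n × Q, Z),
        (∀ (v : Ball n) (hv : v ∈ rim n) q, G (v, q) = F₀ (⟨v, hv⟩, q)) ∧
          ∀ (v : Ball n) (q : Q) (hq : q ∈ B'),
            G (v, q) = f ⟨(⟨hemi e n v, Ball.hemi_mem_rim e v⟩, q), hq⟩ := by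
      intro e
      let g₁ : C(A true, Z) := F₀.comp ⟨fun p => (⟨p.1.1.1, p.2⟩, p.1.1.2), by fun_prop⟩
      let g₀ : C(A false, Z) :=
        f.comp ⟨fun p => ⟨(⟨hemi e n p.1.1.1, Ball.hemi_mem_rim e _⟩, p.1.1.2), p.2⟩, by fun_prop⟩
      have hag : ∀ x (h₁ : x ∈ A true) (h₀ : x ∈ A false), g₁ ⟨x, h₁⟩ = g₀ ⟨x, h₀⟩ := by
        intro x h₁ h₀
        refine (hF₀ ⟨(⟨x.1.1, h₁⟩, x.1.2), h₀⟩).trans (congrArg f (Subtype.ext ?_))
        exact Prod.ext (Subtype.ext (Ball.hemi_eq_of_rim _ _ h₁)) rfl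
      obtain ⟨b, hb⟩ := exists_glue_closed hA
        (fun x => x.2.elim (fun h => ⟨true, h⟩) fun h => ⟨false, h⟩)
        (fun i => Bool.rec (motive := fun i => C(A i, Z)) g₀ g₁ i)
        (fun i j x hi hj => by
          cases i <;> cases j
          · rfl
          · exact (hag x hj hi).symm
          · exact hag x hi hj
          · rfl)
      obtain ⟨G, hG⟩ := ((isBall_rim n).prod hQ).fills Z hZ b
      exact ⟨G, fun v hv q => (hG ⟨(v, q), Or.inl hv⟩).trans (hb true ⟨_, hv⟩),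
        fun v q hq => (hG ⟨(v, q), Or.inr hq⟩).trans (hb false ⟨_, hq⟩)⟩
    choose G hG1 hG2 using hbd
    obtain ⟨F, hF⟩ := Ball.exists_glue G fun v hv q => by rw [hG1 false v hv, hG1 true v hv]
    refine ⟨F, ?_⟩
    rintro ⟨⟨⟨w, hw⟩, q⟩, hq⟩
    obtain ⟨e, v, rfl⟩ := Ball.exists_hemi hw
    exact (hF e v q).trans (hG2 e v q hq)

/-- A map given on the boundary of the boundary of a ball times a ball extends. -/
theorem IsBall.fills_bdry_prod {K Q : Type} [TopologicalSpace K] [TopologicalSpace Q] {B : Set K}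
    {B' : Set Q} (hB : IsBall B) (hQ : IsBall B') : Fills {p : B × Q | p.2 ∈ B'} := by
  obtain ⟨d, e, he⟩ := hB
  intro Z _ hZ f
  obtain ⟨F, hF⟩ := fills_rim_prod hQ d Z hZ
    (f.comp ⟨fun p => ⟨(⟨e p.1.1.1, (he _).2 p.1.1.2⟩, p.1.2), p.2⟩, by fun_prop⟩)
  have hmem : ∀ b : B, e.symm b.1 ∈ rim d := fun b =>
    (he _).1 (by rw [e.apply_symm_apply]; exact b.2)
  refine ⟨F.comp ⟨fun p => (⟨e.symm p.1.1, hmem p.1⟩, p.2), by fun_prop⟩, ?_⟩
  rintro ⟨⟨b, q⟩, hq⟩
  refine (hF ⟨(⟨_, hmem b⟩, q), hq⟩).trans (congrArg f (Subtype.ext (Prod.ext (Subtype.ext ?_) rfl)))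
  exact e.apply_symm_apply b.1

end

end Vale.Agent.P259
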